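import Vale.Agent.P075.Reduction

/-!
# The `L³ × L³ × L³` bound for the dyadic triangular Hilbert form
-/

namespace Vale.Agent.P075

open MeasureTheory Set

/-- The equivalence between admissible index triples and pairs. -/
def xorTriples : ℕ × ℕ ≃ {n : Fin 3 → ℕ // n 0 ^^^ n 1 ^^^ n 2 = 0} where
  toFun p := ⟨![p.1, p.2, p.1 ^^^ p.2], by simp⟩
  invFun n := (n.1 0, n.1 1)
  left_inv p := by simp
  right_inv n := by
    apply Subtype.ext
    have h : n.1 0 ^^^ n.1 1 = n.1 2 := by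
      have h1 := congrArg (· ^^^ n.1 2) n.2
      simpa [Nat.xor_assoc] using h1
    funext i
    fin_cases i <;> simp [h]

lemma cube_sum_eq {m : ℕ} (A B C : ℕ → ℕ → ℝ) :
    ∑ a ∈ Finset.range (2 ^ m), ∑ b ∈ Finset.range (2 ^ m),
        (|A a b| ^ 3 + |B b (a ^^^ b)| ^ 3 + |C (a ^^^ b) a| ^ 3)
      = ∑ a ∈ Finset.range (2 ^ m), ∑ b ∈ Finset.range (2 ^ m),
        (|A a b| ^ 3 + |B a b| ^ 3 + |C a b| ^ 3) := by
  simp only [Finset.sum_add_distrib]
  congr 1
  · congr 1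
    rw [Finset.sum_comm]
    refine Finset.sum_congr rfl fun b hb => ?_
    simp only [Nat.xor_comm _ b]
    exact sum_xor (Finset.mem_range.1 hb) (fun c => |B b c| ^ 3)
  · rw [Finset.sum_congr rfl fun a ha => sum_xor (Finset.mem_range.1 ha) (fun c => |C c a| ^ 3)]
    exact Finset.sum_comm

/-- `∫_{[0,∞)²} |F|³`. -/
noncomputable def cubeMass (F : ℝ × ℝ → ℝ) : ℝ := ∫ x in Ici 0 ×ˢ Ici 0, |F x| ^ 3

lemma sampled_mass {F : ℝ × ℝ → ℝ} (hF : Measurable F) {K : ℝ} (hK : ∀ p, |F p| ≤ K)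
    {R : ℝ} (hR : ∀ p : ℝ × ℝ, R < p.1 ∨ R < p.2 → F p = 0) {h : ℝ} (hh : 0 ≤ h) {N : ℕ}
    (hN : R < N * h) :
    ∑ a ∈ Finset.range N, ∑ b ∈ Finset.range N,
      ∫ w in Ico 0 h ×ˢ Ico 0 h, |smp F h w.1 w.2 a b| ^ 3 = cubeMass F := by
  have := square_split (g := fun x => |F x| ^ 3) hh N (hF.abs.pow_const 3)
    (K := K ^ 3) (fun x => by rw [abs_pow, abs_abs]; exact pow_le_pow_left₀ (abs_nonneg _) (hK x) 3)
  refine this.trans ?_
  refine (setIntegral_eq_of_subset_of_forall_sdiff_eq_zero (measurableSet_Ici.prod measurableSet_Ici)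
    (prod_mono Ico_subset_Ici_self Ico_subset_Ici_self) ?_).symm
  rintro ⟨p, q⟩ ⟨⟨hp, hq⟩, hn⟩
  simp only [mem_Ici] at hp hq
  have : R < p ∨ R < q := by
    by_contra hc
    push Not at hc
    exact hn ⟨⟨hp, by linarith [hc.1]⟩, ⟨hq, by linarith [hc.2]⟩⟩
  simp [hR (p, q) this]

lemma form_le_cubes {S : Finset ℤ} {ε : ℤ → ℝ} (hε : ∀ k ∈ S, |ε k| ≤ 1)
    {F : Fin 3 → ℝ × ℝ → ℝ} (hF : ∀ v, Measurable (F v)) {K : ℝ} (hK : ∀ v p, |F v p| ≤ K)
    {R : ℝ} (hR : ∀ v, ∀ p : ℝ × ℝ, R < p.1 ∨ R < p.2 → F v p = 0) :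
    |dyadicForm S ε F| ≤ 12 * ∑ v, cubeMass (F v) := by
  set T := ∑ k ∈ S, k.natAbs with hT
  have hkT : ∀ k ∈ S, k.natAbs ≤ T := fun k hk =>
    Finset.single_le_sum (f := fun k : ℤ => k.natAbs) (fun _ _ => Nat.zero_le _) hk
  set r : ℤ := -(T : ℤ) - 1 with hr
  set h : ℝ := (2 : ℝ) ^ r with hhdef
  have hh : 0 < h := zpow_pos (by norm_num) _
  obtain ⟨n0, hn0⟩ := pow_unbounded_of_one_lt (R / h) (by norm_num : (1 : ℝ) < 2)
  set m := 2 * T + 2 + n0 with hm
  have hRm : R < ((2 ^ m : ℕ) : ℝ) * h := by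
    have : (2 : ℝ) ^ n0 ≤ 2 ^ m := pow_le_pow_right₀ (by norm_num) (by omega)
    rw [div_lt_iff₀ hh] at hn0
    push_cast
    nlinarith
  set J : ℤ → ℕ := fun k => (k - r - 1).toNat with hJ
  have hJk : ∀ k ∈ S, J k < m ∧ (2 : ℝ) ^ k = h * 2 ^ (J k + 1) := by
    intro k hk
    have := hkT k hk
    constructor
    · simp only [hJ]; omega
    · have e : k = r + ((J k + 1 : ℕ) : ℤ) := by simp only [hJ]; omega
      conv_lhs => rw [e]
      rw [zpow_add₀ (by norm_num), zpow_natCast, hhdef]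
  set q : ℕ → ℕ := fun j => 2 ^ (m - (j + 1)) with hq
  have hint : ∀ j a b, IntegrableOn (tsmp F h j a b) (offs h) := by
    intro j a b
    refine integrableOn_bdd (measurable_tsmp hF h j a b)
      (K := ∑ _i ∈ Finset.range (2 ^ (j + 1)), ∑ _j ∈ Finset.range (2 ^ (j + 1)),
        ∑ _l ∈ Finset.range (2 ^ (j + 1)), K * K * K) (fun u => ?_) (offs_lt h)
    have hK0 : 0 ≤ K := le_trans (abs_nonneg _) (hK 0 (0, 0))
    unfold tsmp tform
    refine (Finset.abs_sum_le_sum_abs _ _).trans (Finset.sum_le_sum fun i _ =>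
      (Finset.abs_sum_le_sum_abs _ _).trans (Finset.sum_le_sum fun i' _ =>
        (Finset.abs_sum_le_sum_abs _ _).trans (Finset.sum_le_sum fun l _ => ?_)))
    have hs : ∀ t, |sg j t| = 1 := fun t => by unfold sg; split_ifs <;> simp
    simp only [abs_mul, hs, one_mul, smp]
    gcongr <;> exact hK _ _
  -- one scale
  have hscale : ∀ k ∈ S, (∑' n : {n : Fin 3 → ℕ // n 0 ^^^ n 1 ^^^ n 2 = 0}, bigL F k n.1)
      = ∑ a ∈ Finset.range (q (J k)), ∑ b ∈ Finset.range (q (J k)),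
          h⁻¹ * (((2 : ℝ) ^ (J k + 1))⁻¹ * ∫ u in offs h, tsmp F h (J k) a b u) := by
    intro k hk
    obtain ⟨hj, hk2⟩ := hJk k hk
    rw [← xorTriples.tsum_eq]
    rw [tsum_eq_sum (s := Finset.range (q (J k)) ×ˢ Finset.range (q (J k))), Finset.sum_product]
    · refine Finset.sum_congr rfl fun a _ => Finset.sum_congr rfl fun b _ => ?_
      exact bigL_eq hF hK hh hk2 _ rfl
    · rintro ⟨a, b⟩ hab
      simp only [Finset.mem_product, Finset.mem_range, not_and_or, not_lt] at hab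
      unfold bigL
      rw [setIntegral_eq_zero_of_forall_eq_zero, mul_zero]
      rintro ⟨x, y, z⟩ ⟨hx, hy, -⟩
      simp only [xorTriples, Equiv.coe_fn_mk, dint, mem_Ico, Matrix.cons_val_zero,
        Matrix.cons_val_one] at hx hy
      have hbig : ∀ c : ℕ, q (J k) ≤ c → R < (2 : ℝ) ^ k * c := by
        intro c hc
        have h1 : (2 : ℝ) ^ k * (q (J k) : ℕ) = ((2 ^ m : ℕ) : ℝ) * h := by
          rw [hk2]; simp only [hq]; push_cast
          rw [mul_assoc, ← pow_add, show J k + 1 + (m - (J k + 1)) = m by omega]; ring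
        have h2 : ((q (J k) : ℕ) : ℝ) ≤ c := by exact_mod_cast hc
        have := mul_le_mul_of_nonneg_left h2 (zpow_nonneg (by norm_num : (0 : ℝ) ≤ 2) k)
        linarith
      have : F 0 (x, y) = 0 := hR 0 (x, y) (by
        rcases hab with h' | h'
        · left; linarith [hbig a h']
        · right; linarith [hbig b h'])
      simp [this]
  set g : ℕ → ℝ × ℝ × ℝ → ℝ := fun j u => ((2 : ℝ) ^ (j + 1))⁻¹ *
    ∑ a ∈ Finset.range (q j), ∑ b ∈ Finset.range (q j), |tsmp F h j a b u| with hg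
  have hgint : ∀ j, IntegrableOn (g j) (offs h) := fun j =>
    Integrable.const_mul (integrable_finsetSum _ fun a _ => integrable_finsetSum _ fun b _ =>
      (hint j a b).abs) _
  have hinj : Set.InjOn J S := by
    intro k hk l hl e
    have := hkT k hk; have := hkT l hl
    simp only [hJ] at e; omega
  have step1 : |dyadicForm S ε F| ≤ h⁻¹ * ∫ u in offs h, ∑ j ∈ Finset.range m, g j u := by
    unfold dyadicForm
    refine (Finset.abs_sum_le_sum_abs _ _).trans ?_
    have hk' : ∀ k ∈ S, |ε k * ∑' n : {n : Fin 3 → ℕ // n 0 ^^^ n 1 ^^^ n 2 = 0}, bigL F k n.1|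
        ≤ h⁻¹ * ∫ u in offs h, g (J k) u := by
      intro k hk
      rw [abs_mul, hscale k hk]
      refine (mul_le_of_le_one_left (abs_nonneg _) (hε k hk)).trans ?_
      simp only [hg, ← Finset.mul_sum, abs_mul]
      rw [abs_of_pos (inv_pos.2 hh), abs_of_pos (inv_pos.2 (pow_pos (by norm_num : (0 : ℝ) < 2) _)),
        integral_const_mul]
      refine mul_le_mul_of_nonneg_left (mul_le_mul_of_nonneg_left ?_ (by positivity)) (by positivity)
      rw [integral_finsetSum _ (fun a _ => integrable_finsetSum _ fun b _ => (hint _ a b).abs)]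
      refine (Finset.abs_sum_le_sum_abs _ _).trans (Finset.sum_le_sum fun a _ => ?_)
      rw [integral_finsetSum _ (fun b _ => (hint _ a b).abs)]
      exact (Finset.abs_sum_le_sum_abs _ _).trans (Finset.sum_le_sum fun b _ => abs_integral_le_integral_abs)
    refine (Finset.sum_le_sum hk').trans ?_
    rw [← Finset.mul_sum, integral_finsetSum _ (fun j _ => hgint j),
      ← Finset.sum_image (f := fun j => ∫ u in offs h, g j u) hinj]
    refine mul_le_mul_of_nonneg_left (Finset.sum_le_sum_of_subset_of_nonneg ?_ fun j _ _ => ?_)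
      (by positivity)
    · intro j hj
      obtain ⟨k, hk, rfl⟩ := Finset.mem_image.1 hj
      exact Finset.mem_range.2 (hJk k hk).1
    · exact integral_nonneg fun u => by simp only [hg]; positivity
  set P : Fin 3 → ℕ → ℕ → ℝ × ℝ → ℝ := fun v a b w => |smp (F v) h w.1 w.2 a b| ^ 3 with hP
  have hPint : ∀ v a b (T : ℝ × ℝ × ℝ → ℝ × ℝ), Measurable T →
      IntegrableOn (fun u => P v a b (T u)) (offs h) := by
    intro v a b T hTm
    refine integrableOn_bdd ?_ (K := K ^ 3) (fun u => ?_) (offs_lt h)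
    · have := hF v
      simp only [hP, smp]; fun_prop
    · simp only [hP, smp]; rw [abs_pow, abs_abs]
      exact pow_le_pow_left₀ (abs_nonneg _) (hK _ _) 3
  have hT0 : Measurable fun u : ℝ × ℝ × ℝ => (u.1, u.2.1) := by fun_prop
  have hT1 : Measurable fun u : ℝ × ℝ × ℝ => u.2 := measurable_snd
  have hT2 : Measurable fun u : ℝ × ℝ × ℝ => (u.2.2, u.1) := by fun_prop
  set V : ℝ × ℝ × ℝ → ℝ := fun u => ∑ a ∈ Finset.range (2 ^ m), ∑ b ∈ Finset.range (2 ^ m),
    (P 0 a b (u.1, u.2.1) + P 1 a b u.2 + P 2 a b (u.2.2, u.1)) with hV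
  have i3 : ∀ a b, IntegrableOn
      (fun u => P 0 a b (u.1, u.2.1) + P 1 a b u.2 + P 2 a b (u.2.2, u.1)) (offs h) :=
    fun a b => ((hPint 0 a b _ hT0).add (hPint 1 a b _ hT1)).add (hPint 2 a b _ hT2)
  have step2 : ∫ u in offs h, ∑ j ∈ Finset.range m, g j u ≤ 12 * ∫ u in offs h, V u := by
    rw [← integral_const_mul]
    refine integral_mono (integrable_finsetSum _ fun j _ => hgint j)
      ((integrable_finsetSum _ fun a _ => integrable_finsetSum _ fun b _ => i3 a b).const_mul 12) ?_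
    intro u
    simp only [hg, hq, hV, hP, tsmp]
    refine (discrete_bound _ _ _ m).trans (le_of_eq ?_)
    rw [cube_sum_eq]
  have hsq : ∀ v a b, ∫ u in offs h, P v a b u.2 = h * ∫ w in Ico 0 h ×ˢ Ico 0 h, P v a b w :=
    fun v a b => setIntegral_snd h hh.le
  have step3 : ∫ u in offs h, V u = h * ∑ v, cubeMass (F v) := by
    rw [hV, integral_finsetSum _ (fun a _ => integrable_finsetSum _ fun b _ => i3 a b)]
    rw [Finset.sum_congr rfl fun a _ => integral_finsetSum _ (fun b _ => i3 a b)]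
    have e : ∀ a b, ∫ u in offs h, (P 0 a b (u.1, u.2.1) + P 1 a b u.2 + P 2 a b (u.2.2, u.1))
        = h * ((∫ w in Ico 0 h ×ˢ Ico 0 h, P 0 a b w) + (∫ w in Ico 0 h ×ˢ Ico 0 h, P 1 a b w)
            + ∫ w in Ico 0 h ×ˢ Ico 0 h, P 2 a b w) := by
      intro a b
      have r0 : ∫ u in offs h, P 0 a b (u.1, u.2.1) = ∫ u in offs h, P 0 a b u.2 := by
        have := setIntegral_rot h (fun u => P 0 a b (rot u).2)
        simp only [rot_apply] at this
        rw [this]
        exact setIntegral_rot h (fun u => P 0 a b u.2)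
      have r2 : ∫ u in offs h, P 2 a b (u.2.2, u.1) = ∫ u in offs h, P 2 a b u.2 :=
        setIntegral_rot h (fun u => P 2 a b u.2)
      have i2 : IntegrableOn (fun u => P 0 a b (u.1, u.2.1) + P 1 a b u.2) (offs h) :=
        (hPint 0 a b _ hT0).add (hPint 1 a b _ hT1)
      rw [integral_add i2 (hPint 2 a b _ hT2),
        integral_add (hPint 0 a b _ hT0) (hPint 1 a b _ hT1), r0, r2, hsq, hsq, hsq]
      ring
    simp only [e, ← Finset.mul_sum, Finset.sum_add_distrib]
    rw [Fin.sum_univ_three, ← sampled_mass (hF 0) (hK 0) (hR 0) hh.le hRm,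
      ← sampled_mass (hF 1) (hK 1) (hR 1) hh.le hRm, ← sampled_mass (hF 2) (hK 2) (hR 2) hh.le hRm]
  calc |dyadicForm S ε F| ≤ h⁻¹ * ∫ u in offs h, ∑ j ∈ Finset.range m, g j u := step1
    _ ≤ h⁻¹ * (12 * (h * ∑ v, cubeMass (F v))) := by
        rw [← step3]; exact mul_le_mul_of_nonneg_left step2 (by positivity)
    _ = _ := by field_simp

lemma dyadicForm_smul (S : Finset ℤ) (ε : ℤ → ℝ) (F : Fin 3 → ℝ × ℝ → ℝ) (t : Fin 3 → ℝ) :
    dyadicForm S ε (fun v p => t v * F v p) = t 0 * t 1 * t 2 * dyadicForm S ε F := by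
  unfold dyadicForm
  rw [Finset.mul_sum]
  refine Finset.sum_congr rfl fun k _ => ?_
  have e : ∀ n, bigL (fun v p => t v * F v p) k n = t 0 * t 1 * t 2 * bigL F k n := by
    intro n
    unfold bigL
    rw [mul_left_comm (t 0 * t 1 * t 2), ← integral_const_mul (t 0 * t 1 * t 2)]
    congr 1
    exact integral_congr_ae (ae_of_all _ fun x => by ring)
  simp only [e, tsum_mul_left]
  ring

/-- **The dyadic triangular Hilbert form is bounded at `(3,3,3)`.** -/
theorem dyadic_bound (S : Finset ℤ) (ε : ℤ → ℝ) (hε : ∀ k ∈ S, |ε k| ≤ 1)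
    (F : Fin 3 → ℝ × ℝ → ℝ) (hF : ∀ v, Measurable (F v)) (K : ℝ) (hK : ∀ v p, |F v p| ≤ K)
    (R : ℝ) (hR : ∀ v, ∀ p : ℝ × ℝ, R < p.1 ∨ R < p.2 → F v p = 0) :
    |dyadicForm S ε F| ≤ 36 * ∏ v, cubeMass (F v) ^ (1 / 3 : ℝ) := by
  have hN : ∀ v, 0 ≤ cubeMass (F v) := fun v => integral_nonneg fun x => by positivity
  have hK0 : 0 ≤ K := le_trans (abs_nonneg _) (hK 0 (0, 0))
  have key : ∀ η : ℝ, 0 < η → |dyadicForm S ε F| ≤ 36 * ∏ v, (cubeMass (F v) + η) ^ (1 / 3 : ℝ) := by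
    intro η hη
    set d : Fin 3 → ℝ := fun v => (cubeMass (F v) + η) ^ (1 / 3 : ℝ) with hd
    have hd0 : ∀ v, 0 < d v := fun v => Real.rpow_pos_of_pos (by linarith [hN v]) _
    have hd3 : ∀ v, d v ^ 3 = cubeMass (F v) + η := by
      intro v
      rw [hd, ← Real.rpow_natCast, ← Real.rpow_mul (by linarith [hN v])]
      norm_num
    set t : Fin 3 → ℝ := fun v => (d v)⁻¹ with ht
    have h := form_le_cubes (F := fun v p => t v * F v p) hε (fun v => (hF v).const_mul _)
      (K := (∑ v, |t v|) * K) (fun v p => by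
        rw [abs_mul]
        exact mul_le_mul (Finset.single_le_sum (fun i _ => abs_nonneg (t i)) (Finset.mem_univ v))
          (hK v p) (abs_nonneg _) (Finset.sum_nonneg fun i _ => abs_nonneg (t i)))
      (R := R) (fun v p hp => by simp [hR v p hp])
    rw [dyadicForm_smul] at h
    have hm : ∀ v, cubeMass (fun p => t v * F v p) ≤ 1 := by
      intro v
      have e : cubeMass (fun p => t v * F v p) = (d v ^ 3)⁻¹ * cubeMass (F v) := by
        unfold cubeMass
        rw [← integral_const_mul]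
        refine integral_congr_ae (ae_of_all _ fun x => ?_)
        simp only [ht, abs_mul, mul_pow, abs_of_pos (inv_pos.2 (hd0 v)), inv_pow]
      rw [e, hd3, inv_mul_le_one₀ (by linarith [hN v])]
      linarith
    have h36 : |t 0 * t 1 * t 2 * dyadicForm S ε F| ≤ 36 := by
      refine h.trans ?_
      rw [Fin.sum_univ_three]
      linarith [hm 0, hm 1, hm 2]
    have hP : 0 < d 0 * d 1 * d 2 := mul_pos (mul_pos (hd0 0) (hd0 1)) (hd0 2)
    have e : t 0 * t 1 * t 2 * dyadicForm S ε F = dyadicForm S ε F / (d 0 * d 1 * d 2) := by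
      simp only [ht]; field_simp
    rw [e, abs_div, abs_of_pos hP, div_le_iff₀ hP] at h36
    rw [Fin.prod_univ_three]
    exact h36
  have hc : Filter.Tendsto (fun η : ℝ => 36 * ∏ v, (cubeMass (F v) + η) ^ (1 / 3 : ℝ))
      (nhdsWithin 0 (Ioi 0)) (nhds (36 * ∏ v, cubeMass (F v) ^ (1 / 3 : ℝ))) := by
    refine Filter.Tendsto.mono_left ?_ nhdsWithin_le_nhds
    refine Filter.Tendsto.const_mul _ (tendsto_finsetProd _ fun v _ => ?_)
    have h1 : Filter.Tendsto (fun η : ℝ => cubeMass (F v) + η) (nhds 0) (nhds (cubeMass (F v))) := by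
      simpa using (tendsto_const_nhds (x := cubeMass (F v))).add (Filter.tendsto_id (x := nhds (0 : ℝ)))
    exact h1.rpow_const (Or.inr (by norm_num))
  exact ge_of_tendsto hc (eventually_nhdsWithin_of_forall fun η hη => key η hη)

end Vale.Agent.P075
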