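import Mathlib

/-!
# P075: the dyadic triangular Hilbert form, as in the problem file
-/

namespace Vale.Agent.P075

open MeasureTheory

/-- `h_I` for `I = [2^k n, 2^k (n+1))`: indicator of the left half minus that of the right half. -/
noncomputable def haar (k : ℤ) (n : ℕ) (x : ℝ) : ℝ :=
  (Set.Ico ((2 : ℝ) ^ k * n) ((2 : ℝ) ^ k * (n + 1 / 2))).indicator 1 x
    - (Set.Ico ((2 : ℝ) ^ k * (n + 1 / 2)) ((2 : ℝ) ^ k * (n + 1))).indicator 1 x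

/-- The dyadic interval `[2^k n, 2^k (n+1))`. -/
def dint (k : ℤ) (n : ℕ) : Set ℝ := Set.Ico ((2 : ℝ) ^ k * n) ((2 : ℝ) ^ k * (n + 1))

/-- `L_I(F_0, F_1, F_2)`, the variable being `x = (x_0, (x_1, x_2))`. -/
noncomputable def bigL (F : Fin 3 → ℝ × ℝ → ℝ) (k : ℤ) (n : Fin 3 → ℕ) : ℝ :=
  ((2 : ℝ) ^ k)⁻¹ * ∫ x in dint k (n 0) ×ˢ (dint k (n 1) ×ˢ dint k (n 2)),
    F 0 (x.1, x.2.1) * F 1 (x.2.1, x.2.2) * F 2 (x.2.2, x.1)
      * (haar k (n 0) x.1 * haar k (n 1) x.2.1 * haar k (n 2) x.2.2)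

/-- `Λ^d_{S,ε}`: for each scale in `S`, the sum over the triples of intervals whose indices have
bitwise exclusive-or equal to zero. -/
noncomputable def dyadicForm (S : Finset ℤ) (ε : ℤ → ℝ) (F : Fin 3 → ℝ × ℝ → ℝ) : ℝ :=
  ∑ k ∈ S, ε k * ∑' n : {n : Fin 3 → ℕ // n 0 ^^^ n 1 ^^^ n 2 = 0}, bigL F k n.1

end Vale.Agent.P075
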