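import Vale.Agent.P075.Step

/-!
# The discrete dyadic triangular form: uniform bound for the sum over scales
-/

namespace Vale.Agent.P075

open Matrix

/-- The block `(a, b)` of side `2^k` of an infinite matrix. -/
def cell (A : ℕ → ℕ → ℝ) (k a b : ℕ) : Matrix (Fin (2 ^ k)) (Fin (2 ^ k)) ℝ :=
  fun i j => A (2 ^ k * a + i) (2 ^ k * b + j)

/-- The sign of the top digit below position `k+1`. -/
def sg (k i : ℕ) : ℝ := if i < 2 ^ k then 1 else -1

/-- The form at scale `k+1` on the triangle of blocks determined by `(a, b)`. -/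
def tform (A B C : ℕ → ℕ → ℝ) (k a b : ℕ) : ℝ :=
  ∑ i ∈ Finset.range (2 ^ (k + 1)), ∑ j ∈ Finset.range (2 ^ (k + 1)),
    ∑ l ∈ Finset.range (2 ^ (k + 1)),
      sg k i * sg k j * sg k l * A (2 ^ (k + 1) * a + i) (2 ^ (k + 1) * b + j)
        * B (2 ^ (k + 1) * b + j) (2 ^ (k + 1) * (a ^^^ b) + l)
        * C (2 ^ (k + 1) * (a ^^^ b) + l) (2 ^ (k + 1) * a + i)

noncomputable def pot (A B C : ℕ → ℕ → ℝ) (k a b : ℕ) : ℝ :=
  tri (cell A k a b) (cell B k b (a ^^^ b)) (cell C k (a ^^^ b) a)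

def ee (k : ℕ) : Fin 2 × Fin (2 ^ k) ≃ Fin (2 ^ (k + 1)) :=
  finProdFinEquiv.trans (finCongr (by ring))

lemma ee_val (k : ℕ) (p : Fin 2 × Fin (2 ^ k)) :
    ((ee k p : Fin (2 ^ (k + 1))) : ℕ) = 2 ^ k * p.1 + p.2 := by
  simp [ee, finProdFinEquiv]; ring

lemma xor_two (a b : ℕ) (i j : Fin 2) :
    (2 * a + (i : ℕ)) ^^^ (2 * b + (j : ℕ)) = 2 * (a ^^^ b) + ((i + j : Fin 2) : ℕ) := by
  apply Nat.eq_of_testBit_eq
  intro n
  cases n with
  | zero =>
    rw [Nat.testBit_xor]
    simp only [Nat.testBit_zero]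
    fin_cases i <;> fin_cases j <;> simp [Nat.add_mod]
  | succ n =>
    rw [Nat.testBit_xor]
    simp only [Nat.testBit_succ]
    have : ∀ (c : ℕ) (t : Fin 2), (2 * c + (t : ℕ)) / 2 = c := fun c t => by omega
    rw [this, this, this, Nat.testBit_xor]

lemma blk_cell (A : ℕ → ℕ → ℝ) (k a b : ℕ) (i j : Fin 2) :
    blk ((cell A (k + 1) a b).submatrix (ee k) (ee k)) i j
      = cell A k (2 * a + i) (2 * b + j) := by
  ext r s
  simp only [submatrix_apply, cell, ee_val]
  congr 1 <;> ring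

lemma phi_cell {k : ℕ} (A B : Matrix (Fin (2 ^ (k + 1))) (Fin (2 ^ (k + 1))) ℝ) :
    phi (A.submatrix (ee k) (ee k)) (B.submatrix (ee k) (ee k)) = phi A B := by
  unfold phi
  rw [transpose_submatrix, transpose_submatrix, submatrix_mul_equiv, submatrix_mul_equiv]
  exact f_submatrix ((psd_gram A).add (psd_gram' B)) (ee k)

lemma tform_step (A B C : ℕ → ℕ → ℝ) (k a b : ℕ) :
    |tform A B C k a b| ≤ 3 * (2 * (∑ i : Fin 2, ∑ j : Fin 2,
        pot A B C k (2 * a + i) (2 * b + j)) - pot A B C (k + 1) a b) := by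
  have h := one_step ((cell A (k + 1) a b).submatrix (ee k) (ee k))
    ((cell B (k + 1) b (a ^^^ b)).submatrix (ee k) (ee k))
    ((cell C (k + 1) (a ^^^ b) a).submatrix (ee k) (ee k))
  have e1 : ∀ i j : Fin 2,
      tri (blk ((cell A (k + 1) a b).submatrix (ee k) (ee k)) i j)
        (blk ((cell B (k + 1) b (a ^^^ b)).submatrix (ee k) (ee k)) j (i + j))
        (blk ((cell C (k + 1) (a ^^^ b) a).submatrix (ee k) (ee k)) (i + j) i)
      = pot A B C k (2 * a + i) (2 * b + j) := by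
    intro i j
    rw [blk_cell, blk_cell, blk_cell, pot, xor_two]
  simp only [e1] at h
  have e2 : tri ((cell A (k + 1) a b).submatrix (ee k) (ee k))
      ((cell B (k + 1) b (a ^^^ b)).submatrix (ee k) (ee k))
      ((cell C (k + 1) (a ^^^ b) a).submatrix (ee k) (ee k)) = pot A B C (k + 1) a b := by
    unfold pot tri; rw [phi_cell, phi_cell, phi_cell]
  rw [e2] at h
  refine le_of_eq_of_le (congrArg abs ?_) h
  simp only [Z, trace, diag_apply, mul_apply, diagonal_apply, ite_mul, zero_mul, mul_ite,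
    mul_zero, Finset.sum_ite_eq, Finset.sum_ite_eq', Finset.mem_univ, if_true, submatrix_apply,
    Finset.sum_mul]
  unfold tform
  have hs : ∀ p : Fin 2 × Fin (2 ^ k), zs p = sg k (ee k p : Fin (2 ^ (k + 1))) := by
    rintro ⟨i, r⟩
    have := r.isLt
    rw [ee_val]; unfold zs sg
    fin_cases i
    · simp [this]
    · simp
  simp only [Finset.sum_range, hs, ← (ee k).sum_comp, cell]
  refine Finset.sum_congr rfl fun i _ => ?_
  rw [Finset.sum_comm]
  refine Finset.sum_congr rfl fun l _ => Finset.sum_congr rfl fun j _ => ?_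
  ring

lemma sum_range_two_mul (g : ℕ → ℝ) (q : ℕ) :
    ∑ a ∈ Finset.range (2 * q), g a = ∑ a ∈ Finset.range q, ∑ i : Fin 2, g (2 * a + i) := by
  induction q with
  | zero => simp
  | succ q ih =>
    rw [Nat.mul_succ, Finset.sum_range_succ, Finset.sum_range_succ, ih,
      Finset.sum_range_succ (n := q), Fin.sum_univ_two]
    simp [add_assoc]

/-- Total potential at scale `k` of a square of side `2^m`. -/
noncomputable def level (A B C : ℕ → ℕ → ℝ) (m k : ℕ) : ℝ :=
  ((2 : ℝ) ^ k)⁻¹ * ∑ a ∈ Finset.range (2 ^ (m - k)), ∑ b ∈ Finset.range (2 ^ (m - k)),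
    pot A B C k a b

lemma level_step (A B C : ℕ → ℕ → ℝ) (m k : ℕ) (hk : k < m) :
    ((2 : ℝ) ^ (k + 1))⁻¹ * ∑ a ∈ Finset.range (2 ^ (m - (k + 1))),
      ∑ b ∈ Finset.range (2 ^ (m - (k + 1))), |tform A B C k a b|
      ≤ 3 * (level A B C m k - level A B C m (k + 1)) := by
  set q := 2 ^ (m - (k + 1)) with hq
  have hq2 : 2 ^ (m - k) = 2 * q := by
    rw [hq, ← pow_succ']; congr 1; omega
  have hsum : ∑ a ∈ Finset.range (2 * q), ∑ b ∈ Finset.range (2 * q), pot A B C k a b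
      = ∑ a ∈ Finset.range q, ∑ b ∈ Finset.range q, ∑ i : Fin 2, ∑ j : Fin 2,
          pot A B C k (2 * a + i) (2 * b + j) := by
    rw [sum_range_two_mul]
    refine Finset.sum_congr rfl fun a _ => ?_
    simp only [sum_range_two_mul (fun b => pot A B C k _ b)]
    rw [Finset.sum_comm]
  unfold level
  rw [hq2, hsum, ← hq]
  have h := Finset.sum_le_sum (s := Finset.range q) fun a _ =>
    Finset.sum_le_sum (s := Finset.range q) fun b _ => tform_step A B C k a b
  calc _ ≤ ((2 : ℝ) ^ (k + 1))⁻¹ * _ := mul_le_mul_of_nonneg_left h (by positivity)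
    _ = _ := by
      simp only [← Finset.mul_sum, Finset.sum_sub_distrib]
      rw [pow_succ]; field_simp

lemma level_nonneg (A B C : ℕ → ℕ → ℝ) (m k : ℕ) : 0 ≤ level A B C m k :=
  mul_nonneg (by positivity)
    (Finset.sum_nonneg fun _ _ => Finset.sum_nonneg fun _ _ => tri_nonneg _ _ _)

lemma phi_zero_le (A B : Matrix (Fin (2 ^ 0)) (Fin (2 ^ 0)) ℝ) :
    phi A B ≤ 2 * (|A 0 0| ^ 3 + |B 0 0| ^ 3) := by
  set a := A 0 0
  set b := B 0 0
  have : Subsingleton (Fin (2 ^ 0)) := Fin.subsingleton_iff_le_one.2 le_rfl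
  have hX : Aᵀ * A + B * Bᵀ = diagonal (fun _ => a * a + b * b) := by
    ext i j
    obtain rfl := Subsingleton.elim i 0
    obtain rfl := Subsingleton.elim j 0
    simp [mul_apply, a, b]
  unfold phi f
  rw [hX, sq_unique (PosSemidef.diagonal (d := fun _ => √(a * a + b * b))
      fun _ => Real.sqrt_nonneg _)
    (by rw [diagonal_mul_diagonal]; congr 1; funext i
        exact Real.mul_self_sqrt (add_nonneg (mul_self_nonneg a) (mul_self_nonneg b))), diagonal_mul_diagonal, trace_diagonal]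
  simp only [Finset.sum_const, Finset.card_univ, Fintype.card_fin, pow_zero, one_smul]
  have h1 : √(a * a + b * b) ≤ |a| + |b| := by
    rw [Real.sqrt_le_left (by positivity)]
    nlinarith [abs_mul_abs_self a, abs_mul_abs_self b, abs_nonneg a, abs_nonneg b,
      mul_nonneg (abs_nonneg a) (abs_nonneg b)]
  calc √(a * a + b * b) * (a * a + b * b) ≤ (|a| + |b|) * (|a| ^ 2 + |b| ^ 2) := by
        rw [sq_abs, sq_abs, pow_two, pow_two]
        exact mul_le_mul_of_nonneg_right h1 (add_nonneg (mul_self_nonneg a) (mul_self_nonneg b))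
    _ ≤ _ := by
        nlinarith [mul_nonneg (add_nonneg (abs_nonneg a) (abs_nonneg b)) (sq_nonneg (|a| - |b|))]

/-- **Uniform bound for the discrete dyadic triangular form.** -/
theorem discrete_bound (A B C : ℕ → ℕ → ℝ) (m : ℕ) :
    ∑ k ∈ Finset.range m, ((2 : ℝ) ^ (k + 1))⁻¹ *
      ∑ a ∈ Finset.range (2 ^ (m - (k + 1))), ∑ b ∈ Finset.range (2 ^ (m - (k + 1))),
        |tform A B C k a b|
      ≤ 12 * ∑ a ∈ Finset.range (2 ^ m), ∑ b ∈ Finset.range (2 ^ m),
          (|A a b| ^ 3 + |B b (a ^^^ b)| ^ 3 + |C (a ^^^ b) a| ^ 3) := by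
  refine (Finset.sum_le_sum fun k hk => level_step A B C m k (Finset.mem_range.1 hk)).trans ?_
  rw [← Finset.mul_sum, Finset.sum_range_sub']
  have h0 : level A B C m 0 ≤ 4 * ∑ a ∈ Finset.range (2 ^ m), ∑ b ∈ Finset.range (2 ^ m),
      (|A a b| ^ 3 + |B b (a ^^^ b)| ^ 3 + |C (a ^^^ b) a| ^ 3) := by
    simp only [level, pow_zero, inv_one, one_mul, Nat.sub_zero, Finset.mul_sum]
    refine Finset.sum_le_sum fun a _ => Finset.sum_le_sum fun b _ => ?_
    have h1 := phi_zero_le (cell A 0 a b) (cell B 0 b (a ^^^ b))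
    have h2 := phi_zero_le (cell B 0 b (a ^^^ b)) (cell C 0 (a ^^^ b) a)
    have h3 := phi_zero_le (cell C 0 (a ^^^ b) a) (cell A 0 a b)
    have e : ∀ (F : ℕ → ℕ → ℝ) (p q : ℕ), cell F 0 p q 0 0 = F p q := fun F p q => by simp [cell]
    rw [e, e] at h1 h2 h3
    unfold pot tri
    linarith
  linarith [level_nonneg A B C m m]

end Vale.Agent.P075
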