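import Vale.Agent.P075.Sqrt

/-!
# The gap `f (G+H) - f G - f H` and a spectral lower bound for it
-/

namespace Vale.Agent.P075

open Matrix

variable {ι : Type*} [Fintype ι] [DecidableEq ι]

noncomputable def gapP (G H : Matrix ι ι ℝ) : ℝ := (G * (sq (G + H) - sq G)).trace

noncomputable def gam (G H : Matrix ι ι ℝ) : ℝ := f (G + H) - f G - f H

lemma gam_eq (G H : Matrix ι ι ℝ) : gam G H = gapP G H + gapP H G := by
  unfold gam gapP f
  rw [add_comm H G, Matrix.mul_sub, Matrix.mul_sub, trace_sub, trace_sub,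
    trace_mul_comm G (sq G), trace_mul_comm H (sq H), Matrix.mul_add, trace_add,
    trace_mul_comm G (sq (G + H)), trace_mul_comm H (sq (G + H))]
  ring

lemma gam_comm (G H : Matrix ι ι ℝ) : gam G H = gam H G := by
  unfold gam; rw [add_comm]; ring

lemma gam_mono_left {G G' H : Matrix ι ι ℝ} (hG : G.PosSemidef) (hG' : G'.PosSemidef)
    (hH : H.PosSemidef) : gam G H ≤ gam (G + G') H := by
  have := gap_mono hG hG' hH
  unfold gam; linarith

lemma gam_mono {G H G' H' : Matrix ι ι ℝ} (hG : G.PosSemidef) (hG' : G'.PosSemidef)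
    (hH : H.PosSemidef) (hH' : H'.PosSemidef) : gam G H ≤ gam (G + G') (H + H') := by
  refine (gam_mono_left hG hG' hH).trans ?_
  rw [gam_comm, gam_comm (G + G')]
  exact gam_mono_left hH hH' (hG.add hG')

lemma gam_conj {G H U : Matrix ι ι ℝ} (hG : G.PosSemidef) (hH : H.PosSemidef)
    (hU : U * Uᵀ = 1) : gam (Uᵀ * G * U) (Uᵀ * H * U) = gam G H := by
  unfold gam
  rw [← Matrix.add_mul, ← Matrix.mul_add, f_conj (hG.add hH) hU, f_conj hG hU, f_conj hH hU]

/-- The square root of `E * Eᵀ` acts on the orthogonal columns of `E` as multiplication by their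
lengths. -/
lemma sq_mul_gram {E : Matrix ι ι ℝ} {x : ι → ℝ} (hx : ∀ i, 0 ≤ x i)
    (hE : Eᵀ * E = diagonal (fun i => x i ^ 2)) :
    sq (E * Eᵀ) * E = E * diagonal x := by
  set S := sq (E * Eᵀ) with hS
  set W := S * E - E * diagonal x with hW
  have hd : diagonal x * diagonal x = diagonal (fun i => x i ^ 2) := by
    simp [diagonal_mul_diagonal, pow_two]
  have h0 : S * W + W * diagonal x = 0 := by
    rw [hW, Matrix.mul_sub, Matrix.sub_mul, ← Matrix.mul_assoc, ← Matrix.mul_assoc,
      Matrix.mul_assoc E (diagonal x), hd, hS, sq_mul (psd_gram' E), ← hS, Matrix.mul_assoc E Eᵀ,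
      hE]
    abel
  have h1 : Wᵀ * S * W + Wᵀ * W * diagonal x = 0 := by
    rw [Matrix.mul_assoc, Matrix.mul_assoc, ← Matrix.mul_add, h0, Matrix.mul_zero]
  suffices hz : W = 0 from sub_eq_zero.1 hz
  ext r i
  rcases (hx i).lt_or_eq with hxi | hxi
  · have h2 := congrFun (congrFun h1 i) i
    rw [Matrix.add_apply, mul_diagonal] at h2
    have a : 0 ≤ (Wᵀ * S * W) i i := (psd_conj (sq_psd _) W).diag_nonneg
    have b : 0 ≤ (Wᵀ * W) i i := (psd_gram W).diag_nonneg
    have hb : (Wᵀ * W) i i = 0 := by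
      simp only [Matrix.zero_apply] at h2
      nlinarith
    rw [mul_apply] at hb
    simp only [transpose_apply] at hb
    have := (Finset.sum_eq_zero_iff_of_nonneg (fun k _ => mul_self_nonneg (W k i))).1 hb r
      (Finset.mem_univ r)
    simpa using this
  · have hcol : ∀ k, E k i = 0 := by
      have h2 := congrFun (congrFun hE i) i
      simp only [mul_apply, transpose_apply, diagonal_apply_eq, ← hxi] at h2
      intro k
      have := (Finset.sum_eq_zero_iff_of_nonneg (fun k _ => mul_self_nonneg (E k i))).1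
        (by simpa using h2) k (Finset.mem_univ k)
      simpa using this
    simp [hW, Matrix.sub_apply, Matrix.mul_apply, Matrix.diagonal_apply, hcol]

lemma trunc_le {K0 : Matrix ι ι ℝ} {w : ι → ℝ} {t : ℝ} (hK : K0ᵀ * K0 = diagonal w)
    (ht : 0 < t) (hw : ∀ j, w j ≤ t ^ 2) :
    ((t ^ 2) • (1 : Matrix ι ι ℝ) - K0 * K0ᵀ).PosSemidef := by
  have h1 : ((1 / t ^ 2) •
      ((t ^ 2 • (1 : Matrix ι ι ℝ) - K0 * K0ᵀ) * (t ^ 2 • (1 : Matrix ι ι ℝ) - K0 * K0ᵀ))).PosSemidef := by
    refine PosSemidef.smul ?_ (by positivity)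
    set M := t ^ 2 • (1 : Matrix ι ι ℝ) - K0 * K0ᵀ with hM
    have : Mᵀ = M := by simp [hM, transpose_sub, transpose_smul, transpose_mul]
    nth_rw 1 [← this]
    exact psd_gram M
  have h2 : (K0 * diagonal (fun j => 1 - w j / t ^ 2) * K0ᵀ).PosSemidef := by
    have hd : ∀ j, 0 ≤ 1 - w j / t ^ 2 := fun j => by
      have : w j / t ^ 2 ≤ 1 := by rw [div_le_one (by positivity)]; exact hw j
      linarith
    have := (PosSemidef.diagonal (n := ι) (d := fun j => 1 - w j / t ^ 2) hd).mul_mul_conjTranspose_same K0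
    simpa using this
  convert h1.add h2 using 1
  have hdiag : diagonal (fun j => 1 - w j / t ^ 2) = (1 : Matrix ι ι ℝ) - (1 / t ^ 2) • diagonal w := by
    rw [← diagonal_smul, ← diagonal_one, diagonal_sub]
    congr 1; funext j; simp; ring
  have e : K0 * diagonal w * K0ᵀ = (K0 * K0ᵀ) * (K0 * K0ᵀ) := by
    rw [← hK]; simp only [Matrix.mul_assoc]
  have e2 : K0 * ((1 : Matrix ι ι ℝ) - (1 / t ^ 2) • diagonal w) * K0ᵀ
      = K0 * K0ᵀ - (1 / t ^ 2) • ((K0 * K0ᵀ) * (K0 * K0ᵀ)) := by
    rw [Matrix.mul_sub, Matrix.mul_one, Matrix.sub_mul, mul_smul_comm, smul_mul_assoc, e]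
  rw [hdiag, e2]
  simp only [Matrix.sub_mul, Matrix.mul_sub, smul_mul_assoc, mul_smul_comm, Matrix.one_mul,
    Matrix.mul_one, smul_sub, smul_smul]
  have t0 : t ≠ 0 := ht.ne'
  match_scalars <;> field_simp <;> ring

/-- Spectral lower bound for one half of the gap. -/
lemma gapP_lower {E K : Matrix ι ι ℝ} {x y : ι → ℝ} (hx : ∀ i, 0 ≤ x i) (hy : ∀ j, 0 ≤ y j)
    (hE : Eᵀ * E = diagonal (fun i => x i ^ 2)) (hK : Kᵀ * K = diagonal (fun j => y j ^ 2)) :
    ∑ i, (x i)⁻¹ * ∑ j, (if y j ≤ x i then (Eᵀ * K) i j ^ 2 else 0)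
      ≤ 3 * gapP (E * Eᵀ) (K * Kᵀ) := by
  classical
  set G := E * Eᵀ with hGdef
  set H := K * Kᵀ with hHdef
  have hG : G.PosSemidef := psd_gram' E
  have hH : H.PosSemidef := psd_gram' K
  set S := sq G with hSdef
  have hSE : S * E = E * diagonal x := sq_mul_gram hx hE
  have hES : Eᵀ * S = diagonal x * Eᵀ := by
    have := congrArg transpose hSE
    simpa [transpose_mul, psd_symm (sq_psd G), hSdef] using this
  set D := sq (G + H) - S with hDdef
  have hD : D.PosSemidef := sq_mono hG (hG.add hH) (by rwa [add_sub_cancel_left])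
  have hP : gapP G H = ∑ i, (Eᵀ * D * E) i i := by
    change (G * D).trace = (Eᵀ * D * E).trace
    rw [hGdef, trace_mul_cycle, trace_mul_comm]
    simp only [Matrix.mul_assoc]
  rw [hP, Finset.mul_sum]
  refine Finset.sum_le_sum fun i _ => ?_
  rcases (hx i).lt_or_eq with hxi | hxi
  swap
  · have := (psd_conj hD E).diag_nonneg (i := i)
    rw [← hxi, _root_.inv_zero, zero_mul]; linarith
  set t := x i with htdef
  set ind : ι → ℝ := fun j => if y j ≤ t then 1 else 0 with hind
  set K0 := K * diagonal ind with hK0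
  set K1 := K * diagonal (fun j => 1 - ind j) with hK1
  have hsplit : K0 * K0ᵀ + K1 * K1ᵀ = H := by
    simp only [hK0, hK1, transpose_mul, diagonal_transpose]
    calc _ = K * (diagonal ind * diagonal ind + diagonal (fun j => 1 - ind j) * diagonal (fun j => 1 - ind j)) * Kᵀ := by
          simp only [Matrix.mul_add, Matrix.add_mul, Matrix.mul_assoc]
      _ = _ := by
          rw [diagonal_mul_diagonal, diagonal_mul_diagonal, diagonal_add]
          have : (fun j => ind j * ind j + (1 - ind j) * (1 - ind j)) = fun _ => (1 : ℝ) := by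
            funext j; simp only [hind]; split_ifs <;> norm_num
          rw [this, diagonal_one, Matrix.mul_one, hHdef]
  set H0 := K0 * K0ᵀ with hH0def
  have hH0 : H0.PosSemidef := psd_gram' K0
  have hH0t : ((t ^ 2) • (1 : Matrix ι ι ℝ) - H0).PosSemidef := by
    refine trunc_le (w := fun j => ind j * y j ^ 2) ?_ hxi ?_
    · simp only [hK0, transpose_mul, diagonal_transpose]
      calc _ = diagonal ind * (Kᵀ * K) * diagonal ind := by simp only [Matrix.mul_assoc]
        _ = _ := by
          rw [hK, diagonal_mul_diagonal, diagonal_mul_diagonal]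
          congr 1; funext j; simp only [hind]; split_ifs <;> simp
    · intro j
      simp only [hind]; split_ifs with h
      · rw [one_mul]; exact pow_le_pow_left₀ (hy j) h 2
      · rw [zero_mul]; positivity
  set R0 := sq (G + H0) with hR0def
  set D0 := R0 - S with hD0def
  have hGH0 : (G + H0).PosSemidef := hG.add hH0
  have hD0 : D0.PosSemidef := sq_mono hG hGH0 (by rwa [add_sub_cancel_left])
  have hDD0 : (D - D0).PosSemidef := by
    have : D - D0 = sq (G + H) - R0 := by rw [hDdef, hD0def]; abel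
    rw [this]
    refine sq_mono hGH0 (hG.add hH) ?_
    have : G + H - (G + H0) = K1 * K1ᵀ := by rw [← hsplit]; abel
    rw [this]; exact psd_gram' K1
  have hSt : (S + t • (1 : Matrix ι ι ℝ)).PosSemidef := (sq_psd G).add (PosSemidef.one.smul hxi.le)
  have hR0le : (t • (1 : Matrix ι ι ℝ) - D0).PosSemidef := by
    have e : t • (1 : Matrix ι ι ℝ) - D0 = (S + t • (1 : Matrix ι ι ℝ)) - R0 := by
      rw [hD0def]; abel
    rw [e]
    refine le_of_sq_le (sq_psd _) hSt ?_
    rw [hR0def, sq_mul hGH0]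
    have : (S + t • (1 : Matrix ι ι ℝ)) * (S + t • (1 : Matrix ι ι ℝ)) - (G + H0)
        = (2 * t) • S + ((t ^ 2) • (1 : Matrix ι ι ℝ) - H0) := by
      simp only [Matrix.add_mul, Matrix.mul_add, smul_mul_assoc, mul_smul_comm, Matrix.one_mul,
        Matrix.mul_one]
      rw [hSdef, sq_mul hG]
      match_scalars <;> ring
    rw [this]
    exact ((sq_psd G).smul (by positivity)).add hH0t
  have hsqle : (t • D0 - D0 * D0).PosSemidef := by
    have hT := sq_psd D0
    have := psd_conj hR0le (sq D0)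
    rw [psd_symm hT, Matrix.mul_sub, Matrix.sub_mul, mul_smul_comm, smul_mul_assoc,
      Matrix.mul_one, sq_mul hD0] at this
    convert this using 1
    congr 1
    calc D0 * D0 = (sq D0 * sq D0) * (sq D0 * sq D0) := by rw [sq_mul hD0]
      _ = sq D0 * (sq D0 * sq D0) * sq D0 := by simp only [Matrix.mul_assoc]
      _ = _ := by rw [sq_mul hD0]
  have hH0eq : H0 = S * D0 + D0 * S + D0 * D0 := by
    have h : R0 * R0 - S * S = H0 := by
      rw [hR0def, hSdef, sq_mul hGH0, sq_mul hG, add_sub_cancel_left]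
    rw [← h, hD0def]
    noncomm_ring
  have a0 : (Eᵀ * H0 * E) i i = 2 * t * (Eᵀ * D0 * E) i i + (Eᵀ * (D0 * D0) * E) i i := by
    rw [hH0eq, Matrix.mul_add, Matrix.mul_add, Matrix.add_mul, Matrix.add_mul]
    have e1 : Eᵀ * (S * D0) * E = diagonal x * (Eᵀ * D0 * E) := by
      rw [← Matrix.mul_assoc, hES]; simp only [Matrix.mul_assoc]
    have e2 : Eᵀ * (D0 * S) * E = (Eᵀ * D0 * E) * diagonal x := by
      rw [Matrix.mul_assoc, Matrix.mul_assoc, hSE]; simp only [Matrix.mul_assoc]
    rw [e1, e2, Matrix.add_apply, Matrix.add_apply, diagonal_mul, mul_diagonal]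
    ring
  have a1 : (Eᵀ * (D0 * D0) * E) i i ≤ t * (Eᵀ * D0 * E) i i := by
    have := (psd_conj hsqle E).diag_nonneg (i := i)
    rw [Matrix.mul_sub, Matrix.sub_mul, mul_smul_comm, smul_mul_assoc, Matrix.sub_apply,
      Matrix.smul_apply, smul_eq_mul] at this
    linarith
  have a2 : (Eᵀ * D0 * E) i i ≤ (Eᵀ * D * E) i i := by
    have := (psd_conj hDD0 E).diag_nonneg (i := i)
    rw [Matrix.mul_sub, Matrix.sub_mul, Matrix.sub_apply] at this
    linarith
  have a3 : (Eᵀ * H0 * E) i i = ∑ j, (if y j ≤ t then (Eᵀ * K) i j ^ 2 else 0) := by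
    have : Eᵀ * H0 * E = (Eᵀ * K0) * (Eᵀ * K0)ᵀ := by
      rw [hH0def]; simp [transpose_mul, Matrix.mul_assoc]
    rw [this, mul_apply]
    refine Finset.sum_congr rfl fun j _ => ?_
    rw [transpose_apply, hK0, ← Matrix.mul_assoc, mul_diagonal, hind]
    by_cases h : y j ≤ t <;> simp [h, pow_two]
  rw [← a3]
  have : (Eᵀ * H0 * E) i i ≤ 3 * t * (Eᵀ * D * E) i i := by
    have := mul_le_mul_of_nonneg_left a2 hxi.le
    linarith
  calc t⁻¹ * (Eᵀ * H0 * E) i i ≤ t⁻¹ * (3 * t * (Eᵀ * D * E) i i) :=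
        mul_le_mul_of_nonneg_left this (by positivity)
    _ = _ := by field_simp

/-- Both spectral halves at once, with one index class of a triangle. -/
lemma class_bound {a b c : Matrix ι ι ℝ} {x y z : ι → ℝ} (hx : ∀ i, 0 ≤ x i)
    (hy : ∀ i, 0 ≤ y i) (hz : ∀ i, 0 ≤ z i)
    (ha : aᵀ * a = diagonal (fun i => x i ^ 2)) (hb : bᵀ * b = diagonal (fun i => y i ^ 2))
    (hc : cᵀ * c = diagonal (fun i => z i ^ 2))
    (p q : ι → ι → Prop) [DecidableRel p] [DecidableRel q]
    (hp : ∀ i j, p i j → y j ≤ x i) (hq : ∀ i l, q i l → z l ≤ x i) :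
    |∑ i, ∑ j, ∑ l, (if p i j ∧ q i l then a l i * b i j * c j l else 0)|
      ≤ 3 / 2 * (gapP (aᵀ * a) (b * bᵀ) + gapP (a * aᵀ) (cᵀ * c)) := by
  have hdx : diagonal x * (diagonal x)ᵀ = aᵀ * a := by
    rw [ha, diagonal_transpose, diagonal_mul_diagonal]; simp [pow_two]
  have hdx' : (diagonal x)ᵀ * diagonal x = diagonal (fun i => x i ^ 2) := by
    rw [diagonal_transpose, diagonal_mul_diagonal]; simp [pow_two]
  have hdz : diagonal z * (diagonal z)ᵀ = cᵀ * c := by
    rw [hc, diagonal_transpose, diagonal_mul_diagonal]; simp [pow_two]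
  have hdz' : (diagonal z)ᵀ * diagonal z = diagonal (fun i => z i ^ 2) := by
    rw [diagonal_transpose, diagonal_mul_diagonal]; simp [pow_two]
  have k1 := gapP_lower hx hy hdx' hb
  rw [hdx] at k1
  have k2 := gapP_lower hx hz ha hdz'
  rw [hdz] at k2
  have main : ∀ i, |∑ j, ∑ l, (if p i j ∧ q i l then a l i * b i j * c j l else 0)| ≤
      (1 / 2) * ((x i)⁻¹ * ∑ j, (if y j ≤ x i then ((diagonal x)ᵀ * b) i j ^ 2 else 0))
      + (1 / 2) * ((x i)⁻¹ * ∑ l, (if z l ≤ x i then (aᵀ * diagonal z) i l ^ 2 else 0)) := by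
    intro i
    rcases (hx i).lt_or_eq with hxi | hxi
    swap
    · have hcol : ∀ k, a k i = 0 := by
        have h2 := congrFun (congrFun ha i) i
        simp only [mul_apply, transpose_apply, diagonal_apply_eq, ← hxi] at h2
        intro k
        have := (Finset.sum_eq_zero_iff_of_nonneg (fun k _ => mul_self_nonneg (a k i))).1
          (by simpa using h2) k (Finset.mem_univ k)
        simpa using this
      simp [hcol, ← hxi]
    set u : ι → ℝ := fun j => if p i j then b i j else 0 with hu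
    set w : ι → ℝ := fun l => if q i l then a l i else 0 with hw
    set v : ι → ℝ := c *ᵥ w with hv
    have e1 : (∑ j, ∑ l, (if p i j ∧ q i l then a l i * b i j * c j l else 0)) = ∑ j, u j * v j := by
      refine Finset.sum_congr rfl fun j _ => ?_
      rw [hv]; simp only [mulVec, dotProduct, Finset.mul_sum]
      refine Finset.sum_congr rfl fun l _ => ?_
      simp only [hu, hw]
      by_cases h1 : p i j <;> by_cases h2 : q i l <;> simp [h1, h2] <;> ring
    have e2 : ∑ j, v j ^ 2 = ∑ l, z l ^ 2 * w l ^ 2 := by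
      have h := dotProduct_mulVec v c w
      rw [← mulVec_transpose, hv, mulVec_mulVec, hc] at h
      rw [← hv] at h
      calc ∑ j, v j ^ 2 = v ⬝ᵥ v := by simp [dotProduct, pow_two]
        _ = _ := by
          rw [h]; simp only [dotProduct, mulVec_diagonal]
          exact Finset.sum_congr rfl fun l _ => by ring
    have ineq : |∑ j, u j * v j| ≤ x i / 2 * ∑ j, u j ^ 2 + (x i)⁻¹ / 2 * ∑ j, v j ^ 2 := by
      rw [Finset.mul_sum, Finset.mul_sum, ← Finset.sum_add_distrib]
      refine (Finset.abs_sum_le_sum_abs _ _).trans (Finset.sum_le_sum fun j _ => ?_)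
      rw [abs_mul]
      have h := two_mul_le_add_sq (x i * |u j|) |v j|
      rw [mul_pow, sq_abs, sq_abs] at h
      have : 0 < (x i)⁻¹ := inv_pos.2 hxi
      have h' := mul_le_mul_of_nonneg_left h (show 0 ≤ (x i)⁻¹ / 2 by positivity)
      field_simp at h' ⊢
      nlinarith
    rw [e1]
    refine ineq.trans (add_le_add ?_ ?_)
    · calc x i / 2 * ∑ j, u j ^ 2
          ≤ x i / 2 * ∑ j, (if y j ≤ x i then b i j ^ 2 else 0) := by
            refine mul_le_mul_of_nonneg_left (Finset.sum_le_sum fun j _ => ?_) (by positivity)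
            simp only [hu]
            by_cases h : p i j
            · simp [h, hp i j h]
            · by_cases h' : y j ≤ x i <;> simp [h, h', sq_nonneg]
        _ = _ := by
            rw [Finset.mul_sum, Finset.mul_sum, Finset.mul_sum]
            refine Finset.sum_congr rfl fun j _ => ?_
            rw [diagonal_transpose, diagonal_mul]
            split_ifs <;> field_simp <;> ring
    · rw [e2]
      calc (x i)⁻¹ / 2 * ∑ l, z l ^ 2 * w l ^ 2
          ≤ (x i)⁻¹ / 2 * ∑ l, (if z l ≤ x i then (aᵀ * diagonal z) i l ^ 2 else 0) := by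
            refine mul_le_mul_of_nonneg_left (Finset.sum_le_sum fun l _ => ?_) (by positivity)
            simp only [hw, mul_diagonal, transpose_apply]
            by_cases h : q i l
            · simp [h, hq i l h, mul_pow]; ring_nf; rfl
            · by_cases h' : z l ≤ x i <;> simp [h, h', sq_nonneg]
        _ = _ := by ring
  refine (Finset.abs_sum_le_sum_abs _ _).trans ((Finset.sum_le_sum fun i _ => main i).trans ?_)
  rw [Finset.sum_add_distrib, ← Finset.mul_sum, ← Finset.mul_sum]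
  linarith

lemma trace_abc_diag {a b c : Matrix ι ι ℝ} {x y z : ι → ℝ} (hx : ∀ i, 0 ≤ x i)
    (hy : ∀ i, 0 ≤ y i) (hz : ∀ i, 0 ≤ z i)
    (ha : aᵀ * a = diagonal (fun i => x i ^ 2)) (hb : bᵀ * b = diagonal (fun i => y i ^ 2))
    (hc : cᵀ * c = diagonal (fun i => z i ^ 2)) :
    |(a * b * c).trace| ≤
      3 / 2 * (gam (aᵀ * a) (b * bᵀ) + gam (bᵀ * b) (c * cᵀ) + gam (cᵀ * c) (a * aᵀ)) := by
  classical
  have K1 := class_bound hx hy hz ha hb hc (fun i j => y j ≤ x i) (fun i l => z l ≤ x i)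
    (fun _ _ h => h) (fun _ _ h => h)
  have K2 := class_bound hy hz hx hb hc ha (fun j l => z l ≤ y j) (fun j i => x i < y j)
    (fun _ _ h => h) (fun _ _ h => h.le)
  have K3 := class_bound hz hx hy hc ha hb (fun l i => x i < z l) (fun l j => y j < z l)
    (fun _ _ h => h.le) (fun _ _ h => h.le)
  set S1 := ∑ i, ∑ j, ∑ l, (if y j ≤ x i ∧ z l ≤ x i then a l i * b i j * c j l else 0) with hS1
  set S2 := ∑ j, ∑ l, ∑ i, (if z l ≤ y j ∧ x i < y j then b i j * c j l * a l i else 0) with hS2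
  set S3 := ∑ l, ∑ i, ∑ j, (if x i < z l ∧ y j < z l then c j l * a l i * b i j else 0) with hS3
  have htr : (a * b * c).trace = S1 + S2 + S3 := by
    have h0 : (a * b * c).trace = ∑ i, ∑ j, ∑ l, a l i * b i j * c j l := by
      simp only [trace, diag_apply, mul_apply, Finset.sum_mul]
      rw [Finset.sum_comm]
      rw [Finset.sum_comm (f := fun i j => ∑ l, a l i * b i j * c j l)]
      exact Finset.sum_congr rfl fun j _ => Finset.sum_comm
    have h2 : S2 = ∑ i, ∑ j, ∑ l, (if z l ≤ y j ∧ x i < y j then a l i * b i j * c j l else 0) := by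
      rw [hS2, Finset.sum_congr rfl fun j _ => Finset.sum_comm, Finset.sum_comm]
      refine Finset.sum_congr rfl fun i _ => Finset.sum_congr rfl fun j _ =>
        Finset.sum_congr rfl fun l _ => ?_
      split_ifs <;> ring
    have h3 : S3 = ∑ i, ∑ j, ∑ l, (if x i < z l ∧ y j < z l then a l i * b i j * c j l else 0) := by
      rw [hS3, Finset.sum_comm]
      refine Finset.sum_congr rfl fun i _ => ?_
      rw [Finset.sum_comm]
      refine Finset.sum_congr rfl fun j _ => Finset.sum_congr rfl fun l _ => ?_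
      split_ifs <;> ring
    rw [h0, hS1, h2, h3, ← Finset.sum_add_distrib, ← Finset.sum_add_distrib]
    refine Finset.sum_congr rfl fun i _ => ?_
    rw [← Finset.sum_add_distrib, ← Finset.sum_add_distrib]
    refine Finset.sum_congr rfl fun j _ => ?_
    rw [← Finset.sum_add_distrib, ← Finset.sum_add_distrib]
    refine Finset.sum_congr rfl fun l _ => ?_
    split_ifs <;> grind
  rw [htr, gam_eq, gam_eq, gam_eq]
  refine (abs_add_three _ _ _).trans ?_
  linarith

lemma exists_gram_diag (a : Matrix ι ι ℝ) :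
    ∃ (V : Matrix ι ι ℝ) (x : ι → ℝ), V * Vᵀ = 1 ∧ (∀ i, 0 ≤ x i) ∧
      Vᵀ * (aᵀ * a) * V = diagonal (fun i => x i ^ 2) := by
  obtain ⟨U, d, hU, hU', hd, he⟩ := exists_diag (psd_gram a)
  refine ⟨U, fun i => √(d i), hU', fun i => Real.sqrt_nonneg _, ?_⟩
  rw [he]
  calc _ = (Uᵀ * U) * diagonal d * (Uᵀ * U) := by simp only [Matrix.mul_assoc]
    _ = _ := by simp [hU, Real.sq_sqrt (hd _)]

/-- The trilinear trace is dominated by the three gaps. -/
theorem trace_abc (a b c : Matrix ι ι ℝ) :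
    |(a * b * c).trace| ≤
      3 / 2 * (gam (aᵀ * a) (b * bᵀ) + gam (bᵀ * b) (c * cᵀ) + gam (cᵀ * c) (a * aᵀ)) := by
  obtain ⟨V, x, hV, hx, hxd⟩ := exists_gram_diag a
  obtain ⟨Q, y, hQ, hy, hyd⟩ := exists_gram_diag b
  obtain ⟨W, z, hW, hz, hzd⟩ := exists_gram_diag c
  have cancel : ∀ {U : Matrix ι ι ℝ}, U * Uᵀ = 1 → ∀ X : Matrix ι ι ℝ, U * (Uᵀ * X) = X := by
    intro U h X; rw [← Matrix.mul_assoc, h, Matrix.one_mul]
  set a' := Wᵀ * a * V with ha'
  set b' := Vᵀ * b * Q with hb'
  set c' := Qᵀ * c * W with hc'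
  have ea : a'ᵀ * a' = Vᵀ * (aᵀ * a) * V := by
    simp [ha', transpose_mul, Matrix.mul_assoc, cancel hW]
  have eb : b'ᵀ * b' = Qᵀ * (bᵀ * b) * Q := by
    simp [hb', transpose_mul, Matrix.mul_assoc, cancel hV]
  have ec : c'ᵀ * c' = Wᵀ * (cᵀ * c) * W := by
    simp [hc', transpose_mul, Matrix.mul_assoc, cancel hQ]
  have ea' : a' * a'ᵀ = Wᵀ * (a * aᵀ) * W := by
    simp [ha', transpose_mul, Matrix.mul_assoc, cancel hV]
  have eb' : b' * b'ᵀ = Vᵀ * (b * bᵀ) * V := by
    simp [hb', transpose_mul, Matrix.mul_assoc, cancel hQ]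
  have ec' : c' * c'ᵀ = Qᵀ * (c * cᵀ) * Q := by
    simp [hc', transpose_mul, Matrix.mul_assoc, cancel hW]
  have et : (a' * b' * c').trace = (a * b * c).trace := by
    have : a' * b' * c' = Wᵀ * (a * b * c * W) := by
      simp [ha', hb', hc', Matrix.mul_assoc, cancel hV, cancel hQ]
    rw [this, trace_mul_comm]
    simp only [Matrix.mul_assoc]
    rw [hW, Matrix.mul_one]
  have := trace_abc_diag (a := a') (b := b') (c := c') hx hy hz
    (ea.trans hxd) (eb.trans hyd) (ec.trans hzd)
  rwa [et, ea, eb', eb, ec', ec, ea', gam_conj (psd_gram a) (psd_gram' b) hV,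
    gam_conj (psd_gram b) (psd_gram' c) hQ, gam_conj (psd_gram c) (psd_gram' a) hW] at this

end Vale.Agent.P075
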