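import Vale.Agent.P075.Discrete
import Vale.Agent.P075.Defs

/-!
# From the dyadic form on functions to the discrete form, by averaging over grid offsets
-/

namespace Vale.Agent.P075

open MeasureTheory Set

instance vol3_left_invariant : (volume : Measure (ℝ × ℝ × ℝ)).IsAddLeftInvariant :=
  Measure.prod.instIsAddLeftInvariant

/-- The cube of grid offsets. -/
def offs (h : ℝ) : Set (ℝ × ℝ × ℝ) := Ico 0 h ×ˢ (Ico 0 h ×ˢ Ico 0 h)

lemma integrableOn_bdd {α : Type*} [MeasurableSpace α] {μ : Measure α} {g : α → ℝ} {s : Set α}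
    (hg : Measurable g) {K : ℝ} (hK : ∀ x, |g x| ≤ K) (hs : μ s < ⊤) : IntegrableOn g s μ := by
  exact IntegrableOn.of_bound hs hg.aestronglyMeasurable K (ae_of_all _ hK)

lemma offs_lt (h : ℝ) : volume (offs h) < ⊤ := by
  have : offs h ⊆ Icc 0 h ×ˢ (Icc 0 h ×ˢ Icc 0 h) :=
    prod_mono Ico_subset_Icc_self (prod_mono Ico_subset_Icc_self Ico_subset_Icc_self)
  exact lt_of_le_of_lt (measure_mono this)
    (isCompact_Icc.prod (isCompact_Icc.prod isCompact_Icc)).measure_lt_top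

lemma ind_split {h : ℝ} (hh : 0 ≤ h) (a : ℝ) (N : ℕ) (x : ℝ) :
    (Ico a (a + N * h)).indicator (1 : ℝ → ℝ) x
      = ∑ p ∈ Finset.range N, (Ico (a + p * h) (a + p * h + h)).indicator (1 : ℝ → ℝ) x := by
  induction N with
  | zero => simp
  | succ N ih =>
    have hN : 0 ≤ (N : ℝ) * h := by positivity
    rw [Finset.sum_range_succ, ← ih]
    refine Eq.trans ?_ (congrFun (indicator_union_of_disjoint Ico_disjoint_Ico_same 1) x)
    rw [Ico_union_Ico_eq_Ico (by linarith) (by linarith)]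
    rw [show a + (N : ℝ) * h + h = a + ((N + 1 : ℕ) : ℝ) * h by push_cast; ring]

lemma box_split {h : ℝ} (hh : 0 ≤ h) (a b c : ℝ) (N : ℕ) {G : ℝ × ℝ × ℝ → ℝ} (hG : Measurable G)
    {K : ℝ} (hK : ∀ x, |G x| ≤ K) :
    ∫ x in Ico a (a + N * h) ×ˢ (Ico b (b + N * h) ×ˢ Ico c (c + N * h)), G x
      = ∑ p ∈ Finset.range N, ∑ q ∈ Finset.range N, ∑ s ∈ Finset.range N,
          ∫ u in offs h, G ((a + p * h, b + q * h, c + s * h) + u) := by
  have e1 : ∀ p q s : ℕ, ∫ u in offs h, G ((a + p * h, b + q * h, c + s * h) + u)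
      = ∫ x, (Ico (a + p * h) (a + p * h + h) ×ˢ (Ico (b + q * h) (b + q * h + h)
          ×ˢ Ico (c + s * h) (c + s * h + h))).indicator G x := by
    intro p q s
    rw [offs, ← integral_indicator (measurableSet_Ico.prod (measurableSet_Ico.prod measurableSet_Ico))]
    refine Eq.trans ?_ (integral_add_left_eq_self _ (a + p * h, b + q * h, c + s * h))
    refine integral_congr_ae (ae_of_all _ fun u => ?_)
    simp only [indicator, mem_prod, mem_Ico, Prod.fst_add, Prod.snd_add, le_add_iff_nonneg_right,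
      add_lt_add_iff_left]
  have hint : ∀ a b c a' b' c' : ℝ,
      Integrable ((Ico a a' ×ˢ (Ico b b' ×ˢ Ico c c')).indicator G) := by
    intro a b c a' b' c'
    rw [integrable_indicator_iff (measurableSet_Ico.prod (measurableSet_Ico.prod measurableSet_Ico))]
    refine integrableOn_bdd hG hK ?_
    exact lt_of_le_of_lt (measure_mono (prod_mono Ico_subset_Icc_self
      (prod_mono Ico_subset_Icc_self Ico_subset_Icc_self)))
      (isCompact_Icc.prod (isCompact_Icc.prod isCompact_Icc)).measure_lt_top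
  simp only [e1]
  rw [← integral_indicator (measurableSet_Ico.prod (measurableSet_Ico.prod measurableSet_Ico))]
  simp_rw [← integral_finsetSum _ (fun s _ => hint _ _ _ _ _ _)]
  rw [Finset.sum_congr rfl fun p _ => (integral_finsetSum _
    (fun q _ => integrable_finsetSum _ fun s _ => hint _ _ _ _ _ _)).symm]
  rw [← integral_finsetSum _
    (fun p _ => integrable_finsetSum _ fun q _ => integrable_finsetSum _ fun s _ => hint _ _ _ _ _ _)]
  refine integral_congr_ae (ae_of_all _ fun x => ?_)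
  have e : ∀ (A B C : Set ℝ), (A ×ˢ (B ×ˢ C)).indicator G x
      = A.indicator 1 x.1 * (B.indicator 1 x.2.1 * C.indicator 1 x.2.2) * G x := by
    intro A B C
    by_cases h1 : x.1 ∈ A <;> by_cases h2 : x.2.1 ∈ B <;> by_cases h3 : x.2.2 ∈ C <;>
      simp [indicator, h1, h2, h3]
  simp only [e]
  rw [ind_split hh, ind_split hh, ind_split hh, Finset.sum_mul_sum, Finset.sum_mul_sum,
    Finset.sum_mul]
  simp only [Finset.sum_mul, Finset.mul_sum]

lemma haar_eq {h : ℝ} (hh : 0 < h) {k : ℤ} {j : ℕ} (hk : (2 : ℝ) ^ k = h * 2 ^ (j + 1))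
    (n p : ℕ) (hp : p < 2 ^ (j + 1)) {u : ℝ} (hu : u ∈ Ico 0 h) :
    haar k n ((2 : ℝ) ^ k * n + p * h + u) = sg j p := by
  obtain ⟨u0, u1⟩ := hu
  have hp0 : (0 : ℝ) ≤ p * h := by positivity
  have hp2 : (p : ℝ) + 1 ≤ 2 ^ (j + 1) := by exact_mod_cast hp
  have hm := mul_le_mul_of_nonneg_right hp2 hh.le
  unfold haar sg
  split_ifs with hlt
  · have h2 : (p : ℝ) + 1 ≤ 2 ^ j := by exact_mod_cast hlt
    have hm' := mul_le_mul_of_nonneg_right h2 hh.le
    have e : (2 : ℝ) ^ k * (n + 1 / 2) = 2 ^ k * n + 2 ^ j * h := by rw [hk, pow_succ]; ring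
    rw [indicator_of_mem (mem_Ico.2 ⟨by linarith, by rw [e]; linarith⟩),
      indicator_of_notMem (fun hx => by rw [e] at hx; linarith [hx.1])]
    simp
  · have h2 : (2 : ℝ) ^ j ≤ p := by exact_mod_cast not_lt.1 hlt
    have hm' := mul_le_mul_of_nonneg_right h2 hh.le
    have e : (2 : ℝ) ^ k * (n + 1 / 2) = 2 ^ k * n + 2 ^ j * h := by rw [hk, pow_succ]; ring
    have e' : (2 : ℝ) ^ k * (n + 1) = 2 ^ k * n + 2 ^ (j + 1) * h := by rw [hk]; ring
    rw [indicator_of_notMem (fun hx => by rw [e] at hx; linarith [hx.2]),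
      indicator_of_mem (mem_Ico.2 ⟨by rw [e]; linarith, by rw [e']; linarith⟩)]
    simp

lemma abs_haar_le (k : ℤ) (n : ℕ) (x : ℝ) : |haar k n x| ≤ 1 := by
  unfold haar indicator
  split_ifs with h1 h2 <;> simp_all

lemma measurable_haar (k : ℤ) (n : ℕ) : Measurable (haar k n) := by
  unfold haar
  exact (measurable_one.indicator measurableSet_Ico).sub (measurable_one.indicator measurableSet_Ico)

/-- The sampled matrices. -/
def smp (F : ℝ × ℝ → ℝ) (h u v : ℝ) (a b : ℕ) : ℝ := F ((a : ℝ) * h + u, (b : ℝ) * h + v)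

/-- The sampled form at one scale, on one triangle. -/
def tsmp (F : Fin 3 → ℝ × ℝ → ℝ) (h : ℝ) (j a b : ℕ) (u : ℝ × ℝ × ℝ) : ℝ :=
  tform (smp (F 0) h u.1 u.2.1) (smp (F 1) h u.2.1 u.2.2) (smp (F 2) h u.2.2 u.1) j a b

lemma measurable_tsmp {F : Fin 3 → ℝ × ℝ → ℝ} (hF : ∀ v, Measurable (F v)) (h : ℝ) (j a b : ℕ) :
    Measurable (tsmp F h j a b) := by
  unfold tsmp tform smp
  fun_prop

lemma bigL_eq {F : Fin 3 → ℝ × ℝ → ℝ} (hF : ∀ v, Measurable (F v)) {K : ℝ}
    (hK : ∀ v p, |F v p| ≤ K) {h : ℝ} (hh : 0 < h) {k : ℤ} {j : ℕ}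
    (hk : (2 : ℝ) ^ k = h * 2 ^ (j + 1)) (n : Fin 3 → ℕ) (hn : n 2 = n 0 ^^^ n 1) :
    bigL F k n = h⁻¹ * (((2 : ℝ) ^ (j + 1))⁻¹ * ∫ u in offs h, tsmp F h j (n 0) (n 1) u) := by
  have hK0 : 0 ≤ K := le_trans (abs_nonneg _) (hK 0 (0, 0))
  set G : ℝ × ℝ × ℝ → ℝ := fun x => F 0 (x.1, x.2.1) * F 1 (x.2.1, x.2.2) * F 2 (x.2.2, x.1)
      * (haar k (n 0) x.1 * haar k (n 1) x.2.1 * haar k (n 2) x.2.2) with hGdef
  have hG : Measurable G := by
    have := measurable_haar k (n 0); have := measurable_haar k (n 1); have := measurable_haar k (n 2)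
    fun_prop
  have hGK : ∀ x, |G x| ≤ K * K * K * (1 * 1 * 1) := by
    intro x
    simp only [hGdef, abs_mul]
    gcongr <;> first | exact hK _ _ | exact abs_haar_le _ _ _
  have hI : ∀ t : ℕ, dint k t = Ico ((2 : ℝ) ^ k * t) ((2 : ℝ) ^ k * t + (2 ^ (j + 1) : ℕ) * h) := by
    intro t; unfold dint; rw [hk]; push_cast; congr 1; ring
  have e0 : bigL F k n = ((2 : ℝ) ^ k)⁻¹ * ∫ x in dint k (n 0) ×ˢ (dint k (n 1) ×ˢ dint k (n 2)), G x :=
    rfl
  rw [e0, hI, hI, hI, box_split hh.le _ _ _ _ hG hGK,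
    show ((2 : ℝ) ^ k)⁻¹ = h⁻¹ * ((2 : ℝ) ^ (j + 1))⁻¹ by rw [hk, mul_inv], mul_assoc]
  congr 2
  have hint : ∀ c : ℝ × ℝ × ℝ, IntegrableOn (fun u => G (c + u)) (offs h) := fun c =>
    integrableOn_bdd (hG.comp (measurable_const_add c)) (fun u => hGK _) (offs_lt h)
  simp_rw [← integral_finsetSum _ (fun s _ => hint _)]
  rw [Finset.sum_congr rfl fun p _ => (integral_finsetSum _
    (fun q _ => integrable_finsetSum _ fun s _ => hint _)).symm]
  rw [← integral_finsetSum _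
    (fun p _ => integrable_finsetSum _ fun q _ => integrable_finsetSum _ fun s _ => hint _)]
  refine setIntegral_congr_fun
    (measurableSet_Ico.prod (measurableSet_Ico.prod measurableSet_Ico)) fun u hu => ?_
  obtain ⟨h0, h1, h2⟩ := hu
  unfold tsmp tform
  refine Finset.sum_congr rfl fun p hp => Finset.sum_congr rfl fun q hq =>
    Finset.sum_congr rfl fun s hs => ?_
  rw [Finset.mem_range] at hp hq hs
  simp only [hGdef, Prod.fst_add, Prod.snd_add, smp, haar_eq hh hk _ _ hp h0,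
    haar_eq hh hk _ _ hq h1, haar_eq hh hk _ _ hs h2, ← hn]
  have ec : ∀ (t i : ℕ), (2 : ℝ) ^ k * t + i * h = ((2 ^ (j + 1) * t + i : ℕ) : ℝ) * h := by
    intro t i; rw [hk]; push_cast; ring
  rw [ec, ec, ec]
  ring

lemma setIntegral_snd {g : ℝ × ℝ → ℝ} (h : ℝ) (hh : 0 ≤ h) :
    ∫ u in offs h, g u.2 = h * ∫ w in Ico 0 h ×ˢ Ico 0 h, g w := by
  have := setIntegral_prod_mul (μ := (volume : Measure ℝ)) (ν := (volume : Measure (ℝ × ℝ)))
    (fun _ : ℝ => (1 : ℝ)) g (Ico 0 h) (Ico 0 h ×ˢ Ico 0 h)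
  rw [← Measure.volume_eq_prod] at this
  simpa [offs, hh] using this

/-- Cyclic permutation of the coordinates. -/
def rot : ℝ × ℝ × ℝ ≃ᵐ ℝ × ℝ × ℝ := MeasurableEquiv.prodComm.trans MeasurableEquiv.prodAssoc

lemma rot_apply (u : ℝ × ℝ × ℝ) : rot u = (u.2.1, u.2.2, u.1) := rfl

lemma setIntegral_rot (h : ℝ) (g : ℝ × ℝ × ℝ → ℝ) :
    ∫ u in offs h, g (rot u) = ∫ u in offs h, g u := by
  have hmp : MeasurePreserving rot := by
    have e1 : MeasurePreserving (MeasurableEquiv.prodComm : ℝ × (ℝ × ℝ) ≃ᵐ (ℝ × ℝ) × ℝ) := by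
      rw [Measure.volume_eq_prod ℝ (ℝ × ℝ), Measure.volume_eq_prod (ℝ × ℝ) ℝ]
      exact Measure.measurePreserving_swap
    exact e1.trans volume_preserving_prodAssoc
  have hpre : rot ⁻¹' offs h = offs h := by
    ext u; simp [rot_apply, offs]; tauto
  have := hmp.setIntegral_preimage_emb rot.measurableEmbedding g (offs h)
  rwa [hpre] at this

lemma sum_xor {m : ℕ} {a : ℕ} (ha : a < 2 ^ m) (g : ℕ → ℝ) :
    ∑ b ∈ Finset.range (2 ^ m), g (a ^^^ b) = ∑ b ∈ Finset.range (2 ^ m), g b := by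
  have hmem : ∀ b, b ∈ Finset.range (2 ^ m) → a ^^^ b ∈ Finset.range (2 ^ m) := fun b hb =>
    Finset.mem_range.2 (Nat.xor_lt_two_pow ha (Finset.mem_range.1 hb))
  have hinv : ∀ b, a ^^^ (a ^^^ b) = b := fun b => by rw [← Nat.xor_assoc, Nat.xor_self, Nat.zero_xor]
  exact Finset.sum_nbij' (fun b => a ^^^ b) (fun b => a ^^^ b) hmem hmem
    (fun b _ => hinv b) (fun b _ => hinv b) (fun b _ => rfl)

lemma square_split {h : ℝ} (hh : 0 ≤ h) (N : ℕ) {g : ℝ × ℝ → ℝ} (hg : Measurable g)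
    {K : ℝ} (hK : ∀ x, |g x| ≤ K) :
    ∑ a ∈ Finset.range N, ∑ b ∈ Finset.range N,
      ∫ w in Ico 0 h ×ˢ Ico 0 h, g ((a : ℝ) * h + w.1, (b : ℝ) * h + w.2)
      = ∫ x in Ico 0 (N * h) ×ˢ Ico 0 (N * h), g x := by
  have hint : ∀ a b a' b' : ℝ, Integrable ((Ico a a' ×ˢ Ico b b').indicator g) := by
    intro a b a' b'
    rw [integrable_indicator_iff (measurableSet_Ico.prod measurableSet_Ico)]
    refine integrableOn_bdd hg hK ?_
    exact lt_of_le_of_lt (measure_mono (prod_mono Ico_subset_Icc_self Ico_subset_Icc_self))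
      (isCompact_Icc.prod isCompact_Icc).measure_lt_top
  have e1 : ∀ a b : ℕ, ∫ w in Ico 0 h ×ˢ Ico 0 h, g ((a : ℝ) * h + w.1, (b : ℝ) * h + w.2)
      = ∫ x, (Ico ((a : ℝ) * h) (a * h + h) ×ˢ Ico ((b : ℝ) * h) (b * h + h)).indicator g x := by
    intro a b
    rw [← integral_indicator (measurableSet_Ico.prod measurableSet_Ico)]
    refine Eq.trans ?_ (integral_add_left_eq_self _ ((a : ℝ) * h, (b : ℝ) * h))
    refine integral_congr_ae (ae_of_all _ fun u => ?_)
    simp only [indicator, mem_prod, mem_Ico, Prod.fst_add, Prod.snd_add, le_add_iff_nonneg_right,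
      add_lt_add_iff_left]
    rfl
  simp only [e1]
  simp_rw [← integral_finsetSum _ (fun b _ => hint _ _ _ _)]
  rw [← integral_finsetSum _ (fun a _ => integrable_finsetSum _ fun b _ => hint _ _ _ _),
    ← integral_indicator (measurableSet_Ico.prod measurableSet_Ico)]
  refine integral_congr_ae (ae_of_all _ fun x => ?_)
  have e : ∀ (A B : Set ℝ), (A ×ˢ B).indicator g x = A.indicator 1 x.1 * B.indicator 1 x.2 * g x := by
    intro A B
    by_cases h1 : x.1 ∈ A <;> by_cases h2 : x.2 ∈ B <;> simp [indicator, h1, h2]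
  have i1 := ind_split hh 0 N x.1
  have i2 := ind_split hh 0 N x.2
  simp only [zero_add] at i1 i2
  simp only [e, i1, i2]
  rw [Finset.sum_mul_sum, Finset.sum_mul]
  simp only [Finset.sum_mul]

end Vale.Agent.P075
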