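import Mathlib

set_option linter.unusedSectionVars false

/-!
# Square roots of real positive semidefinite matrices and the functional `tr X^(3/2)`
-/

namespace Vale.Agent.P075

open Matrix

variable {ι : Type*} [Fintype ι] [DecidableEq ι]

lemma psd_gram {κ : Type*} [Fintype κ] (A : Matrix κ ι ℝ) : (Aᵀ * A).PosSemidef := by
  simpa using posSemidef_conjTranspose_mul_self A

lemma psd_gram' {κ : Type*} [Fintype κ] (A : Matrix ι κ ℝ) : (A * Aᵀ).PosSemidef := by
  simpa using posSemidef_self_mul_conjTranspose A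

lemma psd_symm {X : Matrix ι ι ℝ} (h : X.PosSemidef) : Xᵀ = X := by
  simpa using h.1.eq

lemma psd_conj {X : Matrix ι ι ℝ} (h : X.PosSemidef) (U : Matrix ι ι ℝ) :
    (Uᵀ * X * U).PosSemidef := by
  simpa using h.conjTranspose_mul_mul_same U

/-- Orthogonal diagonalisation of a positive semidefinite real matrix. -/
lemma exists_diag {X : Matrix ι ι ℝ} (h : X.PosSemidef) :
    ∃ (U : Matrix ι ι ℝ) (d : ι → ℝ), Uᵀ * U = 1 ∧ U * Uᵀ = 1 ∧ (∀ i, 0 ≤ d i) ∧
      X = U * diagonal d * Uᵀ := by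
  refine ⟨h.1.eigenvectorUnitary, h.1.eigenvalues, ?_, ?_, h.eigenvalues_nonneg, ?_⟩
  · have := Unitary.coe_star_mul_self h.1.eigenvectorUnitary
    simpa [star_eq_conjTranspose] using this
  · have := Unitary.coe_mul_star_self h.1.eigenvectorUnitary
    simpa [star_eq_conjTranspose] using this
  · have := h.1.spectral_theorem
    simpa [Unitary.conjStarAlgAut_apply, star_eq_conjTranspose] using this

lemma exists_sq {X : Matrix ι ι ℝ} (h : X.PosSemidef) :
    ∃ S : Matrix ι ι ℝ, S.PosSemidef ∧ S * S = X := by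
  obtain ⟨U, d, hU, -, hd, rfl⟩ := exists_diag h
  refine ⟨U * diagonal (fun i => √(d i)) * Uᵀ, ?_, ?_⟩
  · have := (PosSemidef.diagonal (fun i => Real.sqrt_nonneg (d i))).mul_mul_conjTranspose_same U
    simpa using this
  · calc _ = U * diagonal (fun i => √(d i)) * (Uᵀ * U) * (diagonal (fun i => √(d i)) * Uᵀ) := by
          simp only [Matrix.mul_assoc]
      _ = U * (diagonal (fun i => √(d i)) * diagonal (fun i => √(d i))) * Uᵀ := by
          rw [hU]; simp only [Matrix.mul_assoc, Matrix.mul_one, Matrix.one_mul]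
      _ = _ := by
          rw [diagonal_mul_diagonal]
          congr 2
          ext i j
          by_cases hij : i = j <;> simp [hij, Real.mul_self_sqrt (hd _)]

open Classical in
/-- The positive semidefinite square root. -/
noncomputable def sq (X : Matrix ι ι ℝ) : Matrix ι ι ℝ :=
  if h : X.PosSemidef then (exists_sq h).choose else 0

lemma sq_psd (X : Matrix ι ι ℝ) : (sq X).PosSemidef := by
  classical
  unfold sq; split_ifs with h
  · exact (exists_sq h).choose_spec.1
  · exact PosSemidef.zero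

lemma sq_mul {X : Matrix ι ι ℝ} (h : X.PosSemidef) : sq X * sq X = X := by
  classical
  unfold sq; rw [dif_pos h]
  exact (exists_sq h).choose_spec.2

/-- Operator monotonicity of the square root. -/
lemma le_of_sq_le {S R : Matrix ι ι ℝ} (hS : S.PosSemidef) (hR : R.PosSemidef)
    (h : (R * R - S * S).PosSemidef) : (R - S).PosSemidef := by
  have hD : (R - S).IsHermitian := hR.1.sub hS.1
  rw [hD.posSemidef_iff_eigenvalues_nonneg]
  intro i
  by_contra hlt
  simp only [Pi.zero_apply, not_le] at hlt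
  set μ := hD.eigenvalues i with hμ
  set v : ι → ℝ := ⇑(hD.eigenvectorBasis i) with hv
  have he : (R - S) *ᵥ v = μ • v := hD.mulVec_eigenvectorBasis i
  have hq := h.dotProduct_mulVec_nonneg v
  have ha := hR.dotProduct_mulVec_nonneg v
  have hb := hS.dotProduct_mulVec_nonneg v
  have hval : μ = v ⬝ᵥ ((R - S) *ᵥ v) := by
    have := hD.eigenvalues_eq i
    simpa using this
  simp only [star_trivial] at hq ha hb
  have e1 : v ⬝ᵥ ((R * R - S * S) *ᵥ v) = μ * (v ⬝ᵥ (R *ᵥ v)) + μ * (v ⬝ᵥ (S *ᵥ v)) := by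
    have e : R * R - S * S = R * (R - S) + (R - S) * S := by noncomm_ring
    have hsym : (R - S)ᵀ = R - S := by simpa using hD.eq
    rw [e, add_mulVec, dotProduct_add, ← mulVec_mulVec, ← mulVec_mulVec, he,
      mulVec_smul, dotProduct_smul, smul_eq_mul]
    congr 1
    rw [dotProduct_mulVec, ← mulVec_transpose, hsym, he, smul_dotProduct, smul_eq_mul]
  rw [e1] at hq
  have hab : v ⬝ᵥ (R *ᵥ v) = 0 ∧ v ⬝ᵥ (S *ᵥ v) = 0 := by
    constructor <;> nlinarith
  rw [sub_mulVec, dotProduct_sub, hab.1, hab.2, sub_zero] at hval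
  linarith

lemma sq_mono {X Y : Matrix ι ι ℝ} (hX : X.PosSemidef) (hY : Y.PosSemidef)
    (h : (Y - X).PosSemidef) : (sq Y - sq X).PosSemidef :=
  le_of_sq_le (sq_psd X) (sq_psd Y) (by rwa [sq_mul hX, sq_mul hY])

lemma sq_unique {X S : Matrix ι ι ℝ} (hS : S.PosSemidef) (h : S * S = X) : sq X = S := by
  have hX : X.PosSemidef := by
    rw [← h]; nth_rw 1 [← psd_symm hS]; exact psd_gram S
  have h1 := le_of_sq_le hS (sq_psd X) (by rw [sq_mul hX, h, sub_self]; exact PosSemidef.zero)
  have h2 := le_of_sq_le (sq_psd X) hS (by rw [sq_mul hX, h, sub_self]; exact PosSemidef.zero)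
  have t1 := h1.trace_nonneg
  have t2 := h2.trace_nonneg
  rw [trace_sub] at t1 t2
  have : (sq X - S).trace = 0 := by rw [trace_sub]; linarith
  exact sub_eq_zero.1 (h1.trace_eq_zero_iff.1 this)

/-- `tr X^(3/2)`. -/
noncomputable def f (X : Matrix ι ι ℝ) : ℝ := (sq X * X).trace

lemma trace_mul_nonneg {A B : Matrix ι ι ℝ} (hA : A.PosSemidef) (hB : B.PosSemidef) :
    0 ≤ (A * B).trace := by
  rw [← sq_mul hB, ← Matrix.mul_assoc, trace_mul_cycle]
  have := (psd_conj hA (sq B)).trace_nonneg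
  rwa [psd_symm (sq_psd B)] at this

lemma f_nonneg {X : Matrix ι ι ℝ} (hX : X.PosSemidef) : 0 ≤ f X :=
  trace_mul_nonneg (sq_psd X) hX

lemma klein {S R : Matrix ι ι ℝ} (hS : S.PosSemidef) (hR : R.PosSemidef) :
    3 * (S * (R * R)).trace ≤ 2 * (R * (R * R)).trace + (S * (S * S)).trace := by
  obtain ⟨U, d, hU, hU', hd, rfl⟩ := exists_diag hS
  obtain ⟨V, e, hV, hV', he, rfl⟩ := exists_diag hR
  set W := Uᵀ * V with hW
  have cube : ∀ {U : Matrix ι ι ℝ} {d : ι → ℝ}, Uᵀ * U = 1 →
      ((U * diagonal d * Uᵀ) * ((U * diagonal d * Uᵀ) * (U * diagonal d * Uᵀ))).trace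
        = ∑ i, d i ^ 3 := by
    intro U d hU
    have : (U * diagonal d * Uᵀ) * ((U * diagonal d * Uᵀ) * (U * diagonal d * Uᵀ))
        = U * (diagonal d * (diagonal d * diagonal d)) * Uᵀ := by
      simp only [Matrix.mul_assoc]
      simp only [← Matrix.mul_assoc Uᵀ U, hU, Matrix.one_mul]
    rw [this, trace_mul_cycle, hU, Matrix.one_mul, diagonal_mul_diagonal, diagonal_mul_diagonal,
      trace_diagonal]
    exact Finset.sum_congr rfl fun i _ => by ring
  have mixed : ((U * diagonal d * Uᵀ) * ((V * diagonal e * Vᵀ) * (V * diagonal e * Vᵀ))).trace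
      = ∑ i, ∑ j, d i * W i j ^ 2 * e j ^ 2 := by
    have : (U * diagonal d * Uᵀ) * ((V * diagonal e * Vᵀ) * (V * diagonal e * Vᵀ))
        = U * (diagonal d * W * (diagonal e * diagonal e) * Vᵀ) := by
      simp only [hW, Matrix.mul_assoc]
      simp only [← Matrix.mul_assoc Vᵀ V, hV, Matrix.one_mul]
    rw [this, trace_mul_comm, Matrix.mul_assoc, show Vᵀ * U = Wᵀ by simp [hW],
      diagonal_mul_diagonal, trace]
    refine Finset.sum_congr rfl fun i _ => ?_
    rw [diag_apply, mul_apply]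
    refine Finset.sum_congr rfl fun j _ => ?_
    simp [Matrix.mul_diagonal, Matrix.diagonal_mul]
    ring
  have row : ∀ i, ∑ j, W i j ^ 2 = 1 := by
    intro i
    have : W * Wᵀ = 1 := by
      simp only [hW, transpose_mul, transpose_transpose, Matrix.mul_assoc]
      rw [← Matrix.mul_assoc V, hV', Matrix.one_mul, hU]
    simpa [mul_apply, pow_two] using congrFun (congrFun this i) i
  have col : ∀ j, ∑ i, W i j ^ 2 = 1 := by
    intro j
    have : Wᵀ * W = 1 := by
      simp only [hW, transpose_mul, transpose_transpose, Matrix.mul_assoc]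
      rw [← Matrix.mul_assoc U, hU', Matrix.one_mul, hV]
    simpa [mul_apply, pow_two] using congrFun (congrFun this j) j
  rw [cube hV, cube hU, mixed]
  have e1 : ∑ i, d i ^ 3 = ∑ i, ∑ j, W i j ^ 2 * d i ^ 3 := by
    simp [← Finset.sum_mul, row]
  have e2 : ∑ j, e j ^ 3 = ∑ i, ∑ j, W i j ^ 2 * e j ^ 3 := by
    rw [Finset.sum_comm]; simp [← Finset.sum_mul, col]
  rw [e1, e2, Finset.mul_sum, Finset.mul_sum, ← Finset.sum_add_distrib]
  refine Finset.sum_le_sum fun i _ => ?_
  rw [Finset.mul_sum, Finset.mul_sum, ← Finset.sum_add_distrib]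
  refine Finset.sum_le_sum fun j _ => ?_
  have : 0 ≤ W i j ^ 2 * ((d i - e j) ^ 2 * (d i + 2 * e j)) :=
    mul_nonneg (sq_nonneg _) (mul_nonneg (sq_nonneg _) (by linarith [hd i, he j]))
  nlinarith [this]

lemma tangent_lower {X Y : Matrix ι ι ℝ} (hX : X.PosSemidef) (hY : Y.PosSemidef) :
    3 / 2 * (sq X * (Y - X)).trace ≤ f Y - f X := by
  have h := klein (sq_psd X) (sq_psd Y)
  rw [sq_mul hY, sq_mul hX] at h
  rw [Matrix.mul_sub, trace_sub]
  unfold f; linarith

lemma tangent_upper {X Y : Matrix ι ι ℝ} (hX : X.PosSemidef) (hY : Y.PosSemidef) :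
    f Y - f X ≤ 3 / 2 * (sq Y * (Y - X)).trace := by
  have h := tangent_lower hY hX
  rw [Matrix.mul_sub, trace_sub] at h ⊢
  linarith

lemma sq_conj {X : Matrix ι ι ℝ} (hX : X.PosSemidef) {U : Matrix ι ι ℝ} (hU : U * Uᵀ = 1) :
    sq (Uᵀ * X * U) = Uᵀ * sq X * U := by
  refine sq_unique (psd_conj (sq_psd X) U) ?_
  calc _ = Uᵀ * sq X * (U * Uᵀ) * (sq X * U) := by simp only [Matrix.mul_assoc]
    _ = Uᵀ * (sq X * sq X) * U := by
        rw [hU]; simp only [Matrix.mul_assoc, Matrix.one_mul]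
    _ = _ := by rw [sq_mul hX]

lemma f_conj {X : Matrix ι ι ℝ} (hX : X.PosSemidef) {U : Matrix ι ι ℝ} (hU : U * Uᵀ = 1) :
    f (Uᵀ * X * U) = f X := by
  unfold f
  rw [sq_conj hX hU]
  calc _ = (Uᵀ * sq X * (U * Uᵀ) * X * U).trace := by simp only [Matrix.mul_assoc]
    _ = (U * (Uᵀ * sq X * X)).trace := by rw [hU, Matrix.mul_one, trace_mul_comm]
    _ = _ := by
        simp only [← Matrix.mul_assoc]
        rw [hU, Matrix.one_mul]

lemma f_submatrix {κ : Type*} [Fintype κ] [DecidableEq κ] {X : Matrix ι ι ℝ} (hX : X.PosSemidef)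
    (e : κ ≃ ι) : f (X.submatrix e e) = f X := by
  unfold f
  rw [sq_unique ((sq_psd X).submatrix e) (by rw [submatrix_mul_equiv, sq_mul hX]),
    submatrix_mul_equiv]
  simp only [trace, diag_apply, submatrix_apply]
  exact e.sum_comp (fun i => (sq X * X) i i)

lemma f_two_smul {X : Matrix ι ι ℝ} (hX : X.PosSemidef) :
    f ((2 : ℝ) • X) = 2 * √2 * f X := by
  unfold f
  rw [sq_unique ((sq_psd X).smul (Real.sqrt_nonneg 2))
    (by rw [smul_mul_smul_comm, sq_mul hX, Real.mul_self_sqrt (by norm_num)]),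
    smul_mul_smul_comm, trace_smul, smul_eq_mul]
  ring

/-- Convexity in the form used for averaging two children. -/
lemma f_add_le {X Y : Matrix ι ι ℝ} (hX : X.PosSemidef) (hY : Y.PosSemidef) :
    f (X + Y) ≤ √2 * (f X + f Y) := by
  set Z : Matrix ι ι ℝ := (1 / 2 : ℝ) • (X + Y) with hZdef
  have hZ : Z.PosSemidef := (hX.add hY).smul (by norm_num)
  have h1 := tangent_lower hZ hX
  have h2 := tangent_lower hZ hY
  have e : (X - Z) + (Y - Z) = 0 := by rw [hZdef]; module
  have e' : (sq Z * (X - Z)).trace + (sq Z * (Y - Z)).trace = 0 := by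
    rw [← trace_add, ← Matrix.mul_add, e]; simp
  have hXY : X + Y = (2 : ℝ) • Z := by rw [hZdef]; module
  rw [hXY, f_two_smul hZ]
  have : 2 * f Z ≤ f X + f Y := by linarith
  nlinarith [Real.sqrt_nonneg 2]

/-- Monotonicity of the superadditivity gap of `f`. -/
lemma gap_mono {X H Y : Matrix ι ι ℝ} (hX : X.PosSemidef) (hH : H.PosSemidef)
    (hY : Y.PosSemidef) : f (X + Y) - f X ≤ f (X + H + Y) - f (X + H) := by
  by_contra hlt
  push Not at hlt
  set C := 3 / 2 * (sq (X + H) * H).trace with hC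
  set δ := (f (X + Y) - f X) - (f (X + H + Y) - f (X + H)) with hδ
  have hδ0 : 0 < δ := by rw [hδ]; linarith
  obtain ⟨N, hN⟩ := exists_nat_gt (max 1 (C / δ))
  have hN1 : (1 : ℝ) < N := lt_of_le_of_lt (le_max_left _ _) hN
  have hN0 : (0 : ℝ) < N := by linarith
  set ε : ℝ := 1 / N with hε
  have hε0 : 0 ≤ ε := by positivity
  set p : ℕ → Matrix ι ι ℝ := fun k => X + ((k : ℝ) * ε) • H with hp
  have hp0 : ∀ k, (p k).PosSemidef := fun k => hX.add (hH.smul (by positivity))
  set c : ℕ → ℝ := fun k => (sq (p k) * H).trace with hc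
  have step : ∀ k, 3 / 2 * ε * (c k - c (k + 1)) ≤
      (f (p (k + 1) + Y) - f (p (k + 1))) - (f (p k + Y) - f (p k)) := by
    intro k
    have d1 : p (k + 1) - p k = ε • H := by simp only [hp]; push_cast; module
    have d2 : (p (k + 1) + Y) - (p k + Y) = ε • H := by rw [add_sub_add_right_eq_sub, d1]
    have l := tangent_lower ((hp0 k).add hY) ((hp0 (k + 1)).add hY)
    have u := tangent_upper (hp0 k) (hp0 (k + 1))
    rw [d2] at l
    rw [d1] at u
    simp only [mul_smul_comm, trace_smul, smul_eq_mul] at l u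
    have m := trace_mul_nonneg (sq_mono (hp0 k) ((hp0 k).add hY)
      (by rwa [add_sub_cancel_left])) hH
    rw [Matrix.sub_mul, trace_sub] at m
    simp only [hc]
    nlinarith [mul_nonneg hε0 m]
  have tele : ∀ k, 3 / 2 * ε * (c 0 - c k) ≤
      (f (p k + Y) - f (p k)) - (f (p 0 + Y) - f (p 0)) := by
    intro k
    induction k with
    | zero => simp
    | succ k ih => linarith [step k]
  have h := tele N
  have hpN : p N = X + H := by
    have : (N : ℝ) * ε = 1 := by rw [hε]; field_simp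
    simp [hp, this]
  have hp00 : p 0 = X := by simp [hp]
  rw [hpN, hp00] at h
  have hc0 : 0 ≤ c 0 := trace_mul_nonneg (sq_psd _) hH
  have hcN : 3 / 2 * c N = C := by simp only [hc, hC, hpN]
  have : δ ≤ ε * C := by nlinarith [mul_nonneg hε0 hc0]
  have : C < δ * N := by
    have := lt_of_le_of_lt (le_max_right _ _) hN
    rwa [div_lt_iff₀ hδ0, mul_comm] at this
  have : ε * C < δ := by
    rw [hε, one_div_mul_eq_div, div_lt_iff₀ hN0]; linarith
  linarith

end Vale.Agent.P075
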