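import Vale.Agent.P075.Gap

set_option linter.unusedSectionVars false

/-!
# One dyadic step for the vertex potential
-/

namespace Vale.Agent.P075

open Matrix

variable {ι : Type*} [Fintype ι] [DecidableEq ι]

/-- The potential of two blocks meeting at a vertex. -/
noncomputable def phi (A B : Matrix ι ι ℝ) : ℝ := f (Aᵀ * A + B * Bᵀ)

/-- The potential of a triangle of blocks. -/
noncomputable def tri (A B C : Matrix ι ι ℝ) : ℝ := phi A B + phi B C + phi C A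

lemma phi_nonneg (A B : Matrix ι ι ℝ) : 0 ≤ phi A B := f_nonneg ((psd_gram A).add (psd_gram' B))

lemma tri_nonneg (A B C : Matrix ι ι ℝ) : 0 ≤ tri A B C :=
  add_nonneg (add_nonneg (phi_nonneg A B) (phi_nonneg B C)) (phi_nonneg C A)

abbrev blk (A : Matrix (Fin 2 × ι) (Fin 2 × ι) ℝ) (i j : Fin 2) : Matrix ι ι ℝ :=
  A.submatrix (Prod.mk i) (Prod.mk j)

/-- The sign of the top digit. -/
def zs (p : Fin 2 × ι) : ℝ := if p.1 = 0 then 1 else -1

def Z (ι : Type*) [DecidableEq ι] : Matrix (Fin 2 × ι) (Fin 2 × ι) ℝ := diagonal zs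

lemma zs_mul (p : Fin 2 × ι) : zs p * zs p = 1 := by unfold zs; split_ifs <;> norm_num

lemma Z_mul_Z : Z ι * Z ι = 1 := by simp [Z, zs_mul]

lemma Z_transpose : (Z ι)ᵀ = Z ι := diagonal_transpose _

/-- Block diagonal matrix. -/
def bd (X : Fin 2 → Matrix ι ι ℝ) : Matrix (Fin 2 × ι) (Fin 2 × ι) ℝ :=
  fun p q => if p.1 = q.1 then X p.1 p.2 q.2 else 0

lemma bd_mul (X Y : Fin 2 → Matrix ι ι ℝ) : bd X * bd Y = bd (fun i => X i * Y i) := by
  ext p q
  simp only [mul_apply, bd, Fintype.sum_prod_type]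
  rw [Finset.sum_eq_single p.1]
  · by_cases h : p.1 = q.1 <;> simp [h]
  · intro b _ hb; simp [Ne.symm hb]
  · simp

lemma bd_transpose (X : Fin 2 → Matrix ι ι ℝ) : (bd X)ᵀ = bd (fun i => (X i)ᵀ) := by
  ext p q
  simp only [transpose_apply, bd]
  by_cases h : q.1 = p.1
  · simp [h]
  · simp [h, Ne.symm h]

lemma bd_trace (X : Fin 2 → Matrix ι ι ℝ) : (bd X).trace = ∑ i, (X i).trace := by
  simp [trace, bd, Fintype.sum_prod_type]

lemma bd_psd {X : Fin 2 → Matrix ι ι ℝ} (h : ∀ i, (X i).PosSemidef) : (bd X).PosSemidef := by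
  have : bd X = (bd fun i => sq (X i))ᵀ * bd (fun i => sq (X i)) := by
    rw [bd_transpose, bd_mul]
    congr 1; funext i
    rw [psd_symm (sq_psd _), sq_mul (h i)]
  rw [this]; exact psd_gram _

lemma f_bd {X : Fin 2 → Matrix ι ι ℝ} (h : ∀ i, (X i).PosSemidef) :
    f (bd X) = ∑ i, f (X i) := by
  unfold f
  rw [sq_unique (bd_psd fun i => sq_psd (X i))
    (by rw [bd_mul]; congr 1; funext i; exact sq_mul (h i)), bd_mul, bd_trace]

lemma blk_gram (A : Matrix (Fin 2 × ι) (Fin 2 × ι) ℝ) (j : Fin 2) :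
    (Aᵀ * A).submatrix (Prod.mk j) (Prod.mk j) = ∑ i, (blk A i j)ᵀ * blk A i j := by
  ext r s
  simp [mul_apply, Matrix.sum_apply, Fintype.sum_prod_type]

lemma blk_gram' (A : Matrix (Fin 2 × ι) (Fin 2 × ι) ℝ) (j : Fin 2) :
    (A * Aᵀ).submatrix (Prod.mk j) (Prod.mk j) = ∑ l, blk A j l * (blk A j l)ᵀ := by
  ext r s
  simp [mul_apply, Matrix.sum_apply, Fintype.sum_prod_type]

lemma vertex (A B : Matrix (Fin 2 × ι) (Fin 2 × ι) ℝ) :
    f ((Aᵀ * A + B * Bᵀ) + Z ι * (Aᵀ * A + B * Bᵀ) * Z ι)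
      ≤ 4 * ∑ j, ∑ i, phi (blk A i j) (blk B j (i + j)) := by
  set M := Aᵀ * A + B * Bᵀ with hM
  have hMp : M.PosSemidef := (psd_gram A).add (psd_gram' B)
  set D : Fin 2 → Matrix ι ι ℝ := fun j => M.submatrix (Prod.mk j) (Prod.mk j) with hD
  have hDp : ∀ j, (D j).PosSemidef := fun j => hMp.submatrix _
  have e : M + Z ι * M * Z ι = (2 : ℝ) • bd D := by
    ext ⟨i, r⟩ ⟨j, s⟩
    rw [Matrix.add_apply, Matrix.smul_apply]
    simp only [Z, mul_diagonal, diagonal_mul, bd, hD, submatrix_apply, zs]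
    fin_cases i <;> fin_cases j <;> simp <;> ring
  rw [e, f_two_smul (bd_psd hDp), f_bd hDp, Finset.mul_sum, Finset.mul_sum]
  refine Finset.sum_le_sum fun j _ => ?_
  have hj : D j = ∑ i, ((blk A i j)ᵀ * blk A i j + blk B j (i + j) * (blk B j (i + j))ᵀ) := by
    have h1 : D j = (Aᵀ * A).submatrix (Prod.mk j) (Prod.mk j)
        + (B * Bᵀ).submatrix (Prod.mk j) (Prod.mk j) := rfl
    rw [h1, blk_gram, blk_gram', Finset.sum_add_distrib]
    congr 1
    exact (Equiv.sum_comp (Equiv.addRight j) (fun l => blk B j l * (blk B j l)ᵀ)).symm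
  rw [hj, Fin.sum_univ_two, Fin.sum_univ_two]
  have := f_add_le ((psd_gram (blk A 0 j)).add (psd_gram' (blk B j (0 + j))))
    ((psd_gram (blk A 1 j)).add (psd_gram' (blk B j (1 + j))))
  have h2 : √2 * √2 = (2 : ℝ) := Real.mul_self_sqrt (by norm_num)
  unfold phi
  calc 2 * √2 * _ ≤ 2 * √2 * (√2 * _) := mul_le_mul_of_nonneg_left this (by positivity)
    _ = _ := by rw [← mul_assoc, mul_assoc 2, h2]; ring

lemma gam_step (A B : Matrix (Fin 2 × ι) (Fin 2 × ι) ℝ) :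
    gam (Aᵀ * A) (Z ι * (B * Bᵀ) * Z ι)
      ≤ 4 * (∑ j, ∑ i, phi (blk A i j) (blk B j (i + j))) - 2 * phi A B := by
  have hZ : (Z ι) * (Z ι)ᵀ = 1 := by rw [Z_transpose, Z_mul_Z]
  have hG := psd_gram A
  have hH := psd_gram' B
  have hcj : ∀ {X : Matrix (Fin 2 × ι) (Fin 2 × ι) ℝ}, X.PosSemidef → (Z ι * X * Z ι).PosSemidef := by
    intro X h
    have := psd_conj h (Z ι)
    rwa [Z_transpose] at this
  refine (gam_mono hG hH (hcj hH) (hcj hG)).trans ?_
  have hM : Z ι * (B * Bᵀ) * Z ι + Z ι * (Aᵀ * A) * Z ι = Z ι * (Aᵀ * A + B * Bᵀ) * Z ι := by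
    rw [Matrix.mul_add, Matrix.add_mul, add_comm]
  rw [hM]
  unfold gam
  have hf : f (Z ι * (Aᵀ * A + B * Bᵀ) * Z ι) = f (Aᵀ * A + B * Bᵀ) := by
    have := f_conj (hG.add hH) hZ
    rwa [Z_transpose] at this
  rw [hf]
  have := vertex A B
  unfold phi at *
  linarith

theorem one_step (A B C : Matrix (Fin 2 × ι) (Fin 2 × ι) ℝ) :
    |(Z ι * A * Z ι * B * Z ι * C).trace| ≤
      3 * (2 * (∑ i, ∑ j, tri (blk A i j) (blk B j (i + j)) (blk C (i + j) i)) - tri A B C) := by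
  have hz : ∀ X : Matrix (Fin 2 × ι) (Fin 2 × ι) ℝ, Z ι * (Z ι * X) = X := fun X => by
    rw [← Matrix.mul_assoc, Z_mul_Z, Matrix.one_mul]
  have h := trace_abc A (Z ι * B * Z ι) (C * Z ι)
  have et : (A * (Z ι * B * Z ι) * (C * Z ι)).trace = (Z ι * A * Z ι * B * Z ι * C).trace := by
    have : A * (Z ι * B * Z ι) * (C * Z ι) = (A * Z ι * B * Z ι * C) * Z ι := by
      simp only [Matrix.mul_assoc]
    rw [this, trace_mul_comm]
    simp only [Matrix.mul_assoc]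
  have e1 : (Z ι * B * Z ι) * (Z ι * B * Z ι)ᵀ = Z ι * (B * Bᵀ) * Z ι := by
    simp [transpose_mul, Z_transpose, Matrix.mul_assoc, hz]
  have e2 : (Z ι * B * Z ι)ᵀ * (Z ι * B * Z ι) = Z ι * (Bᵀ * B) * Z ι := by
    simp [transpose_mul, Z_transpose, Matrix.mul_assoc, hz]
  have e3 : (C * Z ι) * (C * Z ι)ᵀ = C * Cᵀ := by
    simp [transpose_mul, Z_transpose, Matrix.mul_assoc, hz]
  have e4 : (C * Z ι)ᵀ * (C * Z ι) = Z ι * (Cᵀ * C) * Z ι := by
    simp [transpose_mul, Z_transpose, Matrix.mul_assoc]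
  rw [et, e1, e2, e3, e4] at h
  have g1 := gam_step A B
  have hcj : ∀ {X : Matrix (Fin 2 × ι) (Fin 2 × ι) ℝ}, X.PosSemidef →
      gam (Z ι * X * Z ι) (C * Cᵀ) = gam X (Z ι * (C * Cᵀ) * Z ι) := by
    intro X hX
    have hp : (Z ι * (C * Cᵀ) * Z ι).PosSemidef := by
      have := psd_conj (psd_gram' C) (Z ι)
      rwa [Z_transpose] at this
    have := gam_conj hX hp (U := Z ι) (by rw [Z_transpose, Z_mul_Z])
    rw [Z_transpose] at this
    rw [← this]
    congr 1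
    simp [Matrix.mul_assoc, hz, Z_mul_Z]
  have g2 := gam_step B C
  rw [← hcj (psd_gram B)] at g2
  have hcj' : gam (Z ι * (Cᵀ * C) * Z ι) (A * Aᵀ) = gam (Cᵀ * C) (Z ι * (A * Aᵀ) * Z ι) := by
    have hp : (Z ι * (A * Aᵀ) * Z ι).PosSemidef := by
      have := psd_conj (psd_gram' A) (Z ι)
      rwa [Z_transpose] at this
    have := gam_conj (psd_gram C) hp (U := Z ι) (by rw [Z_transpose, Z_mul_Z])
    rw [Z_transpose] at this
    rw [← this]
    congr 1
    simp [Matrix.mul_assoc, hz, Z_mul_Z]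
  have g3 := gam_step C A
  rw [← hcj'] at g3
  have key : (∑ j, ∑ i, phi (blk A i j) (blk B j (i + j)))
      + (∑ j, ∑ i, phi (blk B i j) (blk C j (i + j)))
      + (∑ j, ∑ i, phi (blk C i j) (blk A j (i + j)))
      = ∑ i, ∑ j, tri (blk A i j) (blk B j (i + j)) (blk C (i + j) i) := by
    simp only [Fin.sum_univ_two, tri, add_zero, zero_add, show (1 : Fin 2) + 1 = 0 from rfl]
    ring
  unfold tri at *
  linarith

end Vale.Agent.P075
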